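import Vale.Agent.P111.TK.H
import Mathlib.MeasureTheory.Measure.Haar.Basic
import Mathlib.MeasureTheory.Group.Integral
import Mathlib.MeasureTheory.Function.LocallyIntegrable
import Mathlib.MeasureTheory.Integral.Bochner.ContinuousLinearMap
import Mathlib.Topology.ContinuousMap.Compact

/-!
The theorem on homogeneous Banach spaces on the Cantor group.
-/

namespace Vale.Agent.P111.TK

open Finset Vale.Agent.P111 MeasureTheory TopologicalSpace

universe v

/-- Replace the first `D` coordinates by `1`. -/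
def tail (D : ℕ) (g : ℕ → ℤˣ) : ℕ → ℤˣ := fun i => if i < D then 1 else g i

theorem tail_mul (D : ℕ) (g h : ℕ → ℤˣ) : tail D (g * h) = tail D g * tail D h := by
  funext i
  simp only [tail, Pi.mul_apply]
  split_ifs <;> simp

theorem continuous_tail (D : ℕ) : Continuous (tail D) := by
  refine continuous_pi fun i => ?_
  unfold tail
  by_cases h : i < D
  · simp only [h, if_true]; exact continuous_const
  · simp only [h, if_false]; exact continuous_apply i

/-- `f` depends only on the first `D` coordinates. -/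
def Dep {E : Type v} [NormedAddCommGroup E] [NormedSpace ℝ E]
    (e : E →L[ℝ] C(ℕ → ℤˣ, ℝ)) (D : ℕ) (f : E) : Prop :=
  ∀ x y : ℕ → ℤˣ, (∀ i < D, x i = y i) → e f x = e f y

theorem exists_proj {E : Type v} [NormedAddCommGroup E] [NormedSpace ℝ E]
    [CompleteSpace E] (e : E →L[ℝ] C(ℕ → ℤˣ, ℝ)) (he : Function.Injective e)
    (τ : (ℕ → ℤˣ) → E → E) (hτ : ∀ g f x, e (τ g f) x = e f (x * g))
    (hn : ∀ g f, ‖τ g f‖ = ‖f‖) (hc : ∀ f, Continuous fun g => τ g f) (D : ℕ) :
    ∃ P : E →L[ℝ] E, (∀ f, ‖P f‖ ≤ ‖f‖) ∧ (∀ f, Dep e D (P f)) ∧ ∀ f, Dep e D f → P f = f := by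
  let _ : MeasurableSpace (ℕ → ℤˣ) := borel _
  have _ : BorelSpace (ℕ → ℤˣ) := ⟨rfl⟩
  set μ : Measure (ℕ → ℤˣ) := Measure.haarMeasure ⊤ with hμ
  have hμ1 : μ Set.univ = 1 := by
    have := Measure.haarMeasure_self (K₀ := (⊤ : PositiveCompacts (ℕ → ℤˣ)))
    simpa using this
  have _ : IsProbabilityMeasure μ := ⟨hμ1⟩
  have hadd : ∀ g f f', τ g (f + f') = τ g f + τ g f' := by
    intro g f f'
    apply he
    ext x
    simp [hτ]
  have hsmul : ∀ g (c : ℝ) f, τ g (c • f) = c • τ g f := by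
    intro g c f
    apply he
    ext x
    simp [hτ]
  have hcont : ∀ f, Continuous fun g => τ (tail D g) f := fun f => (hc f).comp (continuous_tail D)
  have hint : ∀ f, Integrable (fun g => τ (tail D g) f) μ := fun f =>
    (hcont f).integrable_of_hasCompactSupport (HasCompactSupport.of_compactSpace _)
  have hval : ∀ f x, e (∫ g, τ (tail D g) f ∂μ) x = ∫ g, e f (x * tail D g) ∂μ := by
    intro f x
    have h1 := (ContinuousLinearMap.integral_comp_comm e (hint f)).symm
    have h2 : Integrable (fun g => e (τ (tail D g) f)) μ := e.integrable_comp (hint f)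
    have h3 := (ContinuousLinearMap.integral_comp_comm (ContinuousMap.evalCLM ℝ x) h2)
    rw [h1]
    change (ContinuousMap.evalCLM ℝ x) (∫ g, e (τ (tail D g) f) ∂μ) = _
    rw [← h3]
    refine integral_congr_ae (Filter.Eventually.of_forall fun g => ?_)
    exact hτ _ _ _
  let P : E →L[ℝ] E := LinearMap.mkContinuous
    { toFun := fun f => ∫ g, τ (tail D g) f ∂μ
      map_add' := by
        intro f f'
        simp only [hadd]
        exact integral_add (hint f) (hint f')
      map_smul' := by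
        intro c f
        simp only [hsmul, RingHom.id_apply]
        exact integral_smul c _ } 1 (by
    intro f
    rw [one_mul]
    change ‖∫ g, τ (tail D g) f ∂μ‖ ≤ ‖f‖
    refine (norm_integral_le_integral_norm _).trans ?_
    simp [hn])
  have hP : ∀ f, P f = ∫ g, τ (tail D g) f ∂μ := fun _ => rfl
  refine ⟨P, ?_, ?_, ?_⟩
  · intro f
    rw [hP]
    refine (norm_integral_le_integral_norm _).trans ?_
    simp [hn]
  · intro f x y hxy
    rw [hP, hval, hval]
    have hx : ∀ g, x * tail D g = y * tail D ((y⁻¹ * x) * g) := by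
      intro g
      rw [tail_mul, ← mul_assoc]
      congr 1
      funext i
      simp only [tail, Pi.mul_apply, Pi.inv_apply]
      split_ifs with h
      · rw [mul_one]; exact hxy i h
      · rw [mul_inv_cancel_left]
    simp only [hx]
    exact integral_mul_left_eq_self (μ := μ) (fun g => e f (y * tail D g)) (y⁻¹ * x)
  · intro f hf
    apply he
    ext x
    rw [hP, hval]
    have h1 : ∀ g, e f (x * tail D g) = e f x := by
      intro g
      apply hf
      intro i hi
      simp [tail, hi]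
    simp [h1]

/-- Extend a point of the finite cube by `1`. -/
def ext {D : ℕ} (x : Fin D → ℤˣ) : ℕ → ℤˣ := fun i => if h : i < D then x ⟨i, h⟩ else 1

theorem ext_val {D : ℕ} (x : Fin D → ℤˣ) (i : Fin D) : ext x i = x i := by
  simp [ext]

/-- Restrict to the first coordinates. -/
def res {D : ℕ} (x : ℕ → ℤˣ) : Fin D → ℤˣ := fun i => x i

theorem ext_res {D : ℕ} (x : ℕ → ℤˣ) : ∀ i < D, ext (res x : Fin D → ℤˣ) i = x i := by
  intro i hi
  simp [ext, res, hi]

theorem walsh_map_ext {D : ℕ} (S : Finset (Fin D)) (x : ℕ → ℤˣ) :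
    walsh (S.map Fin.valEmbedding) x = walsh S (res x : Fin D → ℤˣ) := by
  simp [walsh, res]

section

variable {E : Type v} [NormedAddCommGroup E] [NormedSpace ℝ E] (e : E →L[ℝ] C(ℕ → ℤˣ, ℝ))

/-- The functions of the first `D` coordinates. -/
def ED (D : ℕ) : Submodule ℝ E where
  carrier := {f | Dep e D f}
  add_mem' := by
    intro f f' hf hf' x y hxy
    simp only [map_add, ContinuousMap.add_apply, hf x y hxy, hf' x y hxy]
  zero_mem' := by
    intro x y _
    simp
  smul_mem' := by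
    intro c f hf x y hxy
    simp only [map_smul, ContinuousMap.smul_apply, hf x y hxy]

theorem mem_ED {D : ℕ} {f : E} : f ∈ ED e D ↔ Dep e D f := Iff.rfl

/-- Evaluation on the finite cube. -/
def evalD (D : ℕ) : ED e D →ₗ[ℝ] ((Fin D → ℤˣ) → ℝ) where
  toFun f x := e f (ext x)
  map_add' := by intro f f'; funext x; simp
  map_smul' := by intro c f; funext x; simp

theorem evalD_apply {D : ℕ} (f : ED e D) (x : Fin D → ℤˣ) : evalD e D f x = e f (ext x) := rfl

theorem e_eq_evalD {D : ℕ} (f : ED e D) (x : ℕ → ℤˣ) : e f x = evalD e D f (res x) := by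
  rw [evalD_apply]
  exact f.2 _ _ fun i hi => (ext_res x i hi).symm

theorem evalD_inj (he : Function.Injective e) (D : ℕ) : Function.Injective (evalD e D) := by
  intro f f' h
  apply Subtype.ext
  apply he
  ext x
  rw [e_eq_evalD, e_eq_evalD, h]

variable {e}

theorem walsh_mem {D : ℕ} (w : Finset ℕ → E) (hw : ∀ S x, e (w S) x = walsh S x)
    (S : Finset (Fin D)) : w (S.map Fin.valEmbedding) ∈ ED e D := by
  intro x y hxy
  rw [hw, hw, walsh_map_ext, walsh_map_ext]
  congr 1
  funext i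
  exact hxy i i.2

theorem evalD_walsh {D : ℕ} (w : Finset ℕ → E) (hw : ∀ S x, e (w S) x = walsh S x)
    (S : Finset (Fin D)) : evalD e D ⟨w (S.map Fin.valEmbedding), walsh_mem w hw S⟩ = walsh S := by
  funext x
  rw [evalD_apply, hw, walsh_map_ext]
  congr 1
  funext i
  exact ext_val x i

theorem evalD_surj {D : ℕ} (w : Finset ℕ → E) (hw : ∀ S x, e (w S) x = walsh S x) :
    Function.Surjective (evalD e D) := by
  intro φ
  refine ⟨∑ S : Finset (Fin D), wc S φ • ⟨w (S.map Fin.valEmbedding), walsh_mem w hw S⟩, ?_⟩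
  rw [map_sum]
  funext x
  rw [Finset.sum_apply]
  simp only [map_smul, Pi.smul_apply, smul_eq_mul]
  rw [← sum_walsh_smul_wc φ x]
  exact Finset.sum_congr rfl fun S _ => by rw [evalD_walsh w hw, smul_eq_mul, mul_comm]

end

theorem CotypeWith.mono' {q C C' : ℝ} {Y : Type*} [NormedAddCommGroup Y] [NormedSpace ℝ Y]
    (h : CotypeWith q C Y) (hC : C ≤ C') : CotypeWith q C' Y := by
  intro n y
  refine (h n y).trans (mul_le_mul_of_nonneg_right hC ?_)
  exact Real.rpow_nonneg (avg_nonneg fun _ => sq_nonneg _) _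

/-- Cotype passes to spaces which embed isometrically. -/
theorem cotypeWith_of_embed {q C : ℝ} (hq : 0 < q) (hC : 0 ≤ C) {Y Z : Type*}
    [NormedAddCommGroup Y] [NormedSpace ℝ Y] [NormedAddCommGroup Z] [NormedSpace ℝ Z]
    (h : CotypeWith q C Z) (j : Y →ₗ[ℝ] Z) (h1 : ∀ y, ‖y‖ ≤ ‖j y‖) (h2 : ∀ y, ‖j y‖ ≤ ‖y‖) :
    CotypeWith q C Y := by
  intro n y
  have h3 := h n fun i => j (y i)
  have h4 : (∑ i, ‖y i‖ ^ q) ^ (1 / q) ≤ (∑ i, ‖j (y i)‖ ^ q) ^ (1 / q) := by
    apply Real.rpow_le_rpow (Finset.sum_nonneg fun _ _ => by positivity)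
    · exact Finset.sum_le_sum fun i _ => Real.rpow_le_rpow (norm_nonneg _) (h1 _) hq.le
    · positivity
  refine h4.trans (h3.trans (mul_le_mul_of_nonneg_left ?_ hC))
  apply Real.rpow_le_rpow (avg_nonneg fun _ => sq_nonneg _) _ (by norm_num)
  apply avg_mono
  intro ε
  have h5 : ∑ i, sg (ε i) • j (y i) = j (∑ i, sg (ε i) • y i) := by
    rw [map_sum]
    exact Finset.sum_congr rfl fun i _ => (map_smul _ _ _).symm
  rw [h5]
  have := h2 (∑ i, sg (ε i) • y i)
  gcongr

/-- The theorem for homogeneous Banach spaces `A ⊂ E ⊂ C` on the Cantor group. -/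
theorem main_inf (q r : ℝ) (E : Type v) [NormedAddCommGroup E] [NormedSpace ℝ E]
    [CompleteSpace E] (e : E →L[ℝ] C(ℕ → ℤˣ, ℝ)) (he : Function.Injective e)
    (τ : (ℕ → ℤˣ) → E → E) (hτ : ∀ g f x, e (τ g f) x = e f (x * g))
    (hn : ∀ g f, ‖τ g f‖ = ‖f‖) (hc : ∀ f, Continuous fun g => τ g f)
    (B : ℝ) (w : Finset ℕ → E) (hw : ∀ S x, e (w S) x = walsh S x) (hB : ∀ S, ‖w S‖ ≤ B) :
    ¬ (HasCotype q E ∧ HasCotype r (E →L[ℝ] ℝ)) := by
  rintro ⟨⟨hq, C₁, hC₁⟩, ⟨hr, C₂, hC₂⟩⟩
  set C : ℝ := max (max (max C₁ C₂) (max ‖e‖ B)) 1 with hC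
  have hC1 : 1 ≤ C := le_max_right _ _
  have hC0 : 0 ≤ C := by linarith
  have hCC₁ : C₁ ≤ C := (le_max_left _ _).trans ((le_max_left _ _).trans (le_max_left _ _))
  have hCC₂ : C₂ ≤ C := (le_max_right _ _).trans ((le_max_left _ _).trans (le_max_left _ _))
  have hCe : ‖e‖ ≤ C := (le_max_left _ _).trans ((le_max_right _ _).trans (le_max_left _ _))
  have hCB : B ≤ C := (le_max_right _ _).trans ((le_max_right _ _).trans (le_max_left _ _))
  have h1 : CotypeWith q C E := CotypeWith.mono' (hC₁) hCC₁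
  have h2 : CotypeWith r C (E →L[ℝ] ℝ) := CotypeWith.mono' (hC₂) hCC₂
  obtain ⟨D, hD⟩ := main.{v} q r C hq hr hC1
  obtain ⟨P, hP1, hP2, hP3⟩ := exists_proj e he τ hτ hn hc D
  let e' : ED e D ≃ₗ[ℝ] ((Fin D → ℤˣ) → ℝ) :=
    LinearEquiv.ofBijective (evalD e D) ⟨evalD_inj e he D, evalD_surj w hw⟩
  have he' : ∀ f, e' f = evalD e D f := fun _ => rfl
  refine hD D le_rfl (ED e D) e' ⟨?_, ?_, ?_⟩ ?_ ?_
  · intro f x
    rw [he', evalD_apply, ← Real.norm_eq_abs]
    refine ((e f).norm_coe_le_norm _).trans ((e.le_opNorm _).trans ?_)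
    exact mul_le_mul_of_nonneg_right hCe (norm_nonneg _)
  · intro f g
    have hmem : τ (ext g) f ∈ ED e D := by
      intro x y hxy
      rw [hτ, hτ]
      exact f.2 _ _ fun i hi => by simp only [Pi.mul_apply, hxy i hi]
    have h3 : e'.symm (fun x => e' f (x * g)) = ⟨τ (ext g) f, hmem⟩ := by
      rw [LinearEquiv.symm_apply_eq, he']
      funext x
      rw [evalD_apply, he', evalD_apply]
      simp only [hτ]
      congr 1
      funext i
      simp only [ext, Pi.mul_apply]
      split_ifs <;> simp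
    rw [h3]
    exact (hn _ _).le
  · intro S
    have h3 : e'.symm (walsh S) = ⟨w (S.map Fin.valEmbedding), walsh_mem w hw S⟩ := by
      rw [LinearEquiv.symm_apply_eq, he', evalD_walsh w hw]
    rw [h3]
    exact (hB _).trans hCB
  · exact cotypeWith_of_embed (by linarith) hC0 h1 (ED e D).subtype (fun _ => le_rfl)
      fun _ => le_rfl
  · let P' : E →L[ℝ] ED e D := P.codRestrict (ED e D) hP2
    have hP' : ∀ f, ‖P' f‖ ≤ ‖f‖ := hP1
    have hP'id : ∀ f : ED e D, P' f = f := fun f => Subtype.ext (hP3 f f.2)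
    have hP'n : ‖P'‖ ≤ 1 := ContinuousLinearMap.opNorm_le_bound _ zero_le_one
      fun f => by rw [one_mul]; exact hP' f
    let j : (ED e D →L[ℝ] ℝ) →ₗ[ℝ] (E →L[ℝ] ℝ) :=
      { toFun := fun φ => φ.comp P'
        map_add' := fun φ ψ => by ext f; simp
        map_smul' := fun c φ => by ext f; simp }
    refine cotypeWith_of_embed (by linarith) hC0 h2 j ?_ ?_
    · intro φ
      refine ContinuousLinearMap.opNorm_le_bound _ (norm_nonneg _) fun f => ?_
      have h3 : φ f = (j φ) f := by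
        change φ f = φ (P' f)
        rw [hP'id]
      rw [h3]
      exact (j φ).le_opNorm f
    · intro φ
      change ‖φ.comp P'‖ ≤ ‖φ‖
      refine (ContinuousLinearMap.opNorm_comp_le _ _).trans ?_
      calc ‖φ‖ * ‖P'‖ ≤ ‖φ‖ * 1 := mul_le_mul_of_nonneg_left hP'n (norm_nonneg _)
        _ = ‖φ‖ := mul_one _

end Vale.Agent.P111.TK
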