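import Mathlib
import Vale.Agent.P111.Bdl.B1
import Vale.Agent.P111.QL.Defs
import Vale.Agent.P111.R2.H351.Moments

/-!
Lifts with values in a ball (sup norm lifts), from cotype of the predual or of the dual.
-/

namespace Vale.Agent.P111.TK

open Finset Vale.Agent.P111

theorem l2_le_l1 {X : Type*} [NormedAddCommGroup X] [NormedSpace ℝ X] {m : ℕ} (x : Fin m → X) :
    (avg fun ε : Fin m → ℤˣ => ‖∑ i, sg (ε i) • x i‖ ^ 2) ^ (1 / 2 : ℝ) ≤
      3 * avg fun ε : Fin m → ℤˣ => ‖∑ i, sg (ε i) • x i‖ := by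
  have h := R2.H351.mom_two_le x
  have h2 : R2.H351.mom 2 (R2.H351.rsum x) =
      (avg fun ε : Fin m → ℤˣ => ‖∑ i, sg (ε i) • x i‖ ^ 2) ^ (1 / 2 : ℝ) := by
    rw [R2.H351.mom]
    congr 1
    refine avg_congr fun ε => ?_
    rw [R2.H351.rsum]
    exact Real.rpow_natCast _ 2
  have h1 : R2.H351.mom 1 (R2.H351.rsum x) =
      avg fun ε : Fin m → ℤˣ => ‖∑ i, sg (ε i) • x i‖ := by
    rw [R2.H351.mom]
    simp only [Real.rpow_one, div_one]
    rfl
  rwa [h2, h1] at h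

theorem sum_norm_le {q C : ℝ} (hq : 2 ≤ q) (hC : 0 ≤ C) {X : Type*}
    [NormedAddCommGroup X] [NormedSpace ℝ X] (hX : CotypeWith q C X) {m : ℕ} (x : Fin m → X) :
    ∑ i, ‖x i‖ ≤ 3 * C * (m : ℝ) ^ (1 - 1 / q) *
      avg fun ε : Fin m → ℤˣ => ‖∑ i, sg (ε i) • x i‖ := by
  have hq0 : 0 < q := by linarith
  have h1 := hX m x
  have h2 := l2_le_l1 x
  have h3 : ∑ i, ‖x i‖ ≤ (m : ℝ) ^ (1 - 1 / q) * (∑ i, ‖x i‖ ^ q) ^ (1 / q) := by
    have hol := Real.inner_le_Lp_mul_Lq_of_nonneg (s := (Finset.univ : Finset (Fin m)))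
      (f := fun _ => (1:ℝ)) (g := fun i => ‖x i‖)
      (p := q.conjExponent) (q := q)
      (Real.HolderConjugate.conjExponent (by linarith : 1 < q)).symm
      (fun _ _ => zero_le_one) (fun i _ => norm_nonneg _)
    simp only [one_mul, Real.one_rpow, Finset.sum_const, Finset.card_univ, Fintype.card_fin,
      nsmul_eq_mul, mul_one] at hol
    have he : 1 / q.conjExponent = 1 - 1 / q := by
      have := (Real.HolderConjugate.conjExponent (by linarith : 1 < q)).inv_add_inv_eq_one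
      rw [one_div, one_div]
      linarith
    rwa [he] at hol
  calc ∑ i, ‖x i‖ ≤ (m : ℝ) ^ (1 - 1 / q) * (∑ i, ‖x i‖ ^ q) ^ (1 / q) := h3
    _ ≤ (m : ℝ) ^ (1 - 1 / q) * (C * (3 * avg fun ε : Fin m → ℤˣ => ‖∑ i, sg (ε i) • x i‖)) := by
        refine mul_le_mul_of_nonneg_left ?_ (by positivity)
        exact h1.trans (mul_le_mul_of_nonneg_left h2 hC)
    _ = _ := by ring

theorem lift_sup {q C b : ℝ} (hq : 2 ≤ q) (hC : 0 ≤ C) (hb : 0 ≤ b) {X : Type*}
    [NormedAddCommGroup X] [NormedSpace ℝ X] (hX : CotypeWith q C X) {m : ℕ}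
    (y : Fin m → (X →L[ℝ] ℝ)) (hy : ∀ k, ‖y k‖ ≤ b) :
    ∃ ν : (Fin m → ℤˣ) → (X →L[ℝ] ℝ), (∀ δ, ‖ν δ‖ ≤ 3 * C * b * (m : ℝ) ^ (1 - 1 / q)) ∧
      (∀ δ, ν (-δ) = - ν δ) ∧ ∀ k, wc {k} ν = y k := by
  classical
  set c₀ : ℝ := 3 * C * b * (m : ℝ) ^ (1 - 1 / q) with hc₀
  have hc₀0 : 0 ≤ c₀ := by positivity
  let φ₀ : ((Fin m → ℤˣ) → X) →ₗ[ℝ] ℝ :=
    { toFun := fun h => ∑ i, y i (wc {i} h)
      map_add' := by
        intro h h'
        rw [← Finset.sum_add_distrib]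
        refine Finset.sum_congr rfl fun i _ => ?_
        rw [← map_add]
        congr 1
        simp only [wc, Pi.add_apply, smul_add]
        exact avg_add _ _
      map_smul' := by
        intro s h
        rw [RingHom.id_apply, smul_eq_mul, Finset.mul_sum]
        refine Finset.sum_congr rfl fun i _ => ?_
        rw [← smul_eq_mul, ← map_smul]
        congr 1
        simp only [wc, Pi.smul_apply]
        rw [← avg_smul]
        exact avg_congr fun ω => smul_comm _ _ _ }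
  let Rl : (Fin m → X) →ₗ[ℝ] ((Fin m → ℤˣ) → X) :=
    { toFun := fun x ε => ∑ i, sg (ε i) • x i
      map_add' := by
        intro x x'
        funext ε
        simp [smul_add, Finset.sum_add_distrib]
      map_smul' := by
        intro s x
        funext ε
        simp only [RingHom.id_apply, Pi.smul_apply, Finset.smul_sum]
        exact Finset.sum_congr rfl fun i _ => smul_comm _ _ _ }
  have hRl : ∀ (x : Fin m → X) (ε : Fin m → ℤˣ), Rl x ε = ∑ i, sg (ε i) • x i := fun _ _ => rfl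
  have hwcR : ∀ (x : Fin m → X) (k : Fin m), wc {k} (Rl x) = x k := by
    intro x k
    have h1 : Rl x = fun ε => ∑ i, walsh {i} ε • x i := by
      funext ε
      rw [hRl]
      simp only [walsh_singleton]
    rw [h1, wc]
    simp only [Finset.smul_sum]
    rw [avg_sum]
    have h2 : ∀ i, (avg fun ω : Fin m → ℤˣ => walsh {k} ω • walsh {i} ω • x i) =
        if ({k} : Finset (Fin m)) = {i} then x i else 0 := fun i => wc_walsh_smul {k} {i} (x i)
    rw [Finset.sum_congr rfl fun i _ => h2 i]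
    simp
  have hφR : ∀ x : Fin m → X, φ₀ (Rl x) = ∑ i, y i (x i) := by
    intro x
    change ∑ i, y i (wc {i} (Rl x)) = _
    exact Finset.sum_congr rfl fun i _ => by rw [hwcR]
  let f : ((Fin m → ℤˣ) → X) →ₗ.[ℝ] ℝ := ⟨LinearMap.range Rl, φ₀.domRestrict _⟩
  have hN : ∃ Γ : ((Fin m → ℤˣ) → X) →ₗ[ℝ] ℝ, (∀ x : f.domain, Γ x = f x) ∧
      ∀ h, Γ h ≤ c₀ * avg fun ω => ‖h ω‖ := by
    refine exists_extension_of_le_sublinear f (fun h => c₀ * avg fun ω => ‖h ω‖) ?_ ?_ ?_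
    · intro s hs h
      simp only [Pi.smul_apply, norm_smul, Real.norm_eq_abs, abs_of_pos hs]
      rw [avg_mul_left]
      ring
    · intro h h'
      rw [← mul_add]
      refine mul_le_mul_of_nonneg_left ?_ hc₀0
      rw [← avg_add]
      exact avg_mono fun ω => norm_add_le _ _
    · rintro ⟨h, x, rfl⟩
      change φ₀ (Rl x) ≤ c₀ * avg fun ω => ‖(Rl x) ω‖
      rw [hφR]
      calc ∑ i, y i (x i) ≤ ∑ i, b * ‖x i‖ := by
            refine Finset.sum_le_sum fun i _ => ?_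
            refine (le_abs_self _).trans ?_
            exact ((y i).le_opNorm (x i)).trans
              (mul_le_mul_of_nonneg_right (hy i) (norm_nonneg _))
        _ = b * ∑ i, ‖x i‖ := by rw [Finset.mul_sum]
        _ ≤ b * (3 * C * (m : ℝ) ^ (1 - 1 / q) *
              avg fun ε : Fin m → ℤˣ => ‖∑ i, sg (ε i) • x i‖) :=
            mul_le_mul_of_nonneg_left (sum_norm_le hq hC hX x) hb
        _ = c₀ * avg fun ω => ‖(Rl x) ω‖ := by
            rw [hc₀]
            simp only [hRl]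
            ring
  obtain ⟨Γ, hΓ1, hΓ2⟩ := hN
  set N : ℝ := (Fintype.card (Fin m → ℤˣ) : ℝ) with hNdef
  have hN0 : 0 < N := by
    rw [hNdef]; exact_mod_cast Fintype.card_pos
  have hsingle : ∀ (ε : Fin m → ℤˣ) (x : X),
      (avg fun ω => ‖(Pi.single ε x : (Fin m → ℤˣ) → X) ω‖) = N⁻¹ * ‖x‖ := by
    intro ε x
    rw [avg, smul_eq_mul, ← hNdef]
    congr 1
    rw [Finset.sum_eq_single ε]
    · rw [Pi.single_eq_same]
    · intro ω _ hω
      rw [Pi.single_eq_of_ne hω, norm_zero]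
    · intro h; exact absurd (Finset.mem_univ ε) h
  have hbd : ∀ (ε : Fin m → ℤˣ) (x : X), |N * Γ (Pi.single ε x)| ≤ c₀ * ‖x‖ := by
    have hone : ∀ (ε : Fin m → ℤˣ) (x : X), N * Γ (Pi.single ε x) ≤ c₀ * ‖x‖ := by
      intro ε x
      have h1 := hΓ2 (Pi.single ε x)
      rw [hsingle] at h1
      calc N * Γ (Pi.single ε x) ≤ N * (c₀ * (N⁻¹ * ‖x‖)) := mul_le_mul_of_nonneg_left h1 hN0.le
        _ = c₀ * ‖x‖ := by field_simp
    intro ε x
    refine abs_le.mpr ⟨?_, hone ε x⟩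
    have h2 := hone ε (-x)
    rw [Pi.single_neg, map_neg, norm_neg] at h2
    linarith
  let g : (Fin m → ℤˣ) → X →L[ℝ] ℝ := fun ε =>
    LinearMap.mkContinuous
      { toFun := fun x => N * Γ (Pi.single ε x)
        map_add' := by
          intro x x'
          rw [Pi.single_add, map_add, mul_add]
        map_smul' := by
          intro s x
          rw [Pi.single_smul, map_smul]
          simp only [smul_eq_mul, RingHom.id_apply]
          ring }
      c₀ (fun x => hbd ε x)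
  have hg : ∀ ε x, g ε x = N * Γ (Pi.single ε x) := fun _ _ => rfl
  have hgn : ∀ ε, ‖g ε‖ ≤ c₀ := fun ε => LinearMap.mkContinuous_norm_le _ hc₀0 _
  have hgΓ : ∀ h : (Fin m → ℤˣ) → X, (avg fun ε => g ε (h ε)) = Γ h := by
    intro h
    rw [avg, smul_eq_mul]
    simp_rw [hg]
    rw [← Finset.mul_sum, ← mul_assoc, ← hNdef, inv_mul_cancel₀ hN0.ne', one_mul, ← map_sum,
      Finset.univ_sum_single]
  have hwcg : ∀ k, wc {k} g = y k := by
    intro k
    ext x
    have h1 : (wc {k} g) x = avg fun ε : Fin m → ℤˣ => g ε (walsh {k} ε • x) := by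
      rw [wc, avg, avg, _root_.smul_apply, _root_.sum_apply]
      simp
    rw [h1, hgΓ fun ε : Fin m → ℤˣ => walsh {k} ε • x]
    have h2 : (fun ε : Fin m → ℤˣ => walsh {k} ε • x) = Rl (Pi.single k x) := by
      funext ε
      rw [hRl, Finset.sum_eq_single k]
      · simp [walsh_singleton]
      · intro j _ hj
        rw [Pi.single_eq_of_ne hj, smul_zero]
      · simp
    rw [h2]
    have h3 := hΓ1 ⟨Rl (Pi.single k x), Pi.single k x, rfl⟩
    change Γ (Rl (Pi.single k x)) = φ₀ (Rl (Pi.single k x)) at h3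
    rw [h3, hφR, Finset.sum_eq_single k]
    · simp
    · intro j _ hj
      rw [Pi.single_eq_of_ne hj, map_zero]
    · simp
  refine ⟨fun δ => (1 / 2 : ℝ) • (g δ - g (-δ)), ?_, ?_, ?_⟩
  · intro δ
    rw [norm_smul, Real.norm_eq_abs, abs_of_pos (by norm_num : (0:ℝ) < 1 / 2)]
    have := norm_sub_le (g δ) (g (-δ))
    have h1 := hgn δ
    have h2 := hgn (-δ)
    linarith
  · intro δ
    change (1 / 2 : ℝ) • (g (-δ) - g (- -δ)) = -((1 / 2 : ℝ) • (g δ - g (-δ)))
    rw [neg_neg]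
    ext x
    simp only [_root_.smul_apply, _root_.sub_apply, _root_.neg_apply, smul_eq_mul]
    ring
  · intro k
    have h1 : (wc {k} fun δ => g (-δ)) = - wc {k} g := by
      have h2 := wc_translate {k} g (-1 : Fin m → ℤˣ)
      have h3 : (fun ω : Fin m → ℤˣ => g (-1 * ω)) = fun δ => g (-δ) := by
        funext ω; rw [neg_one_mul]
      have h4 : walsh {k} (-1 : Fin m → ℤˣ) = -1 := by
        rw [walsh_singleton, Pi.neg_apply, Pi.one_apply, sg_neg_one]
      rw [h3, h4, neg_one_smul] at h2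
      exact h2
    have h5 : (wc {k} fun δ => (1 / 2 : ℝ) • (g δ - g (-δ))) =
        (1 / 2 : ℝ) • (wc {k} g - wc {k} fun δ => g (-δ)) := by
      simp only [wc]
      rw [← avg_sub, ← avg_smul]
      refine avg_congr fun ω => ?_
      rw [smul_comm, smul_sub]
    rw [h5, h1, hwcg k, sub_neg_eq_add, ← two_smul ℝ (y k), smul_smul]
    norm_num

theorem finrank_dual (X : Type*) [NormedAddCommGroup X] [NormedSpace ℝ X]
    [FiniteDimensional ℝ X] : Module.finrank ℝ (X →L[ℝ] ℝ) = Module.finrank ℝ X := by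
  rw [← (LinearMap.toContinuousLinearMap (𝕜 := ℝ) (E := X) (F' := ℝ)).finrank_eq]
  rw [Module.finrank_linearMap, Module.finrank_self, mul_one]

/-- In finite dimensions every functional on the dual is an evaluation. -/
theorem exists_eval {X : Type*} [NormedAddCommGroup X] [NormedSpace ℝ X]
    [FiniteDimensional ℝ X] (Φ : (X →L[ℝ] ℝ) →L[ℝ] ℝ) :
    ∃ x : X, NormedSpace.inclusionInDoubleDualLi ℝ x = Φ := by
  have : FiniteDimensional ℝ (X →L[ℝ] ℝ) :=
    (LinearMap.toContinuousLinearMap (𝕜 := ℝ) (E := X) (F' := ℝ)).finiteDimensional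
  have : FiniteDimensional ℝ ((X →L[ℝ] ℝ) →L[ℝ] ℝ) :=
    (LinearMap.toContinuousLinearMap (𝕜 := ℝ) (E := X →L[ℝ] ℝ) (F' := ℝ)).finiteDimensional
  have hinj : Function.Injective
      (NormedSpace.inclusionInDoubleDualLi (E := X) ℝ).toLinearMap :=
    (NormedSpace.inclusionInDoubleDualLi (E := X) ℝ).injective
  have hfr : Module.finrank ℝ X = Module.finrank ℝ ((X →L[ℝ] ℝ) →L[ℝ] ℝ) := by
    rw [finrank_dual (X →L[ℝ] ℝ), finrank_dual X]
  exact (LinearMap.injective_iff_surjective_of_finrank_eq_finrank hfr).mp hinj Φ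

theorem lift_fd {r C b : ℝ} (hr : 2 ≤ r) (hC : 0 ≤ C) (hb : 0 ≤ b) {X : Type*}
    [NormedAddCommGroup X] [NormedSpace ℝ X] [FiniteDimensional ℝ X]
    (hX : CotypeWith r C (X →L[ℝ] ℝ)) {m : ℕ} (z : Fin m → X) (hz : ∀ k, ‖z k‖ ≤ b) :
    ∃ Z : (Fin m → ℤˣ) → X, (∀ δ, ‖Z δ‖ ≤ 3 * C * b * (m : ℝ) ^ (1 - 1 / r)) ∧
      (∀ δ, Z (-δ) = - Z δ) ∧ ∀ k, wc {k} Z = z k := by
  set i : X →ₗᵢ[ℝ] ((X →L[ℝ] ℝ) →L[ℝ] ℝ) := NormedSpace.inclusionInDoubleDualLi ℝ with hi
  obtain ⟨ν, hν1, hν2, hν3⟩ := lift_sup hr hC hb hX (fun k => i (z k)) (fun k => by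
      rw [i.norm_map]; exact hz k)
  choose Z hZ using fun δ => exists_eval (ν δ)
  have hZ' : ∀ δ, i (Z δ) = ν δ := hZ
  refine ⟨Z, ?_, ?_, ?_⟩
  · intro δ
    rw [← i.norm_map, hZ']
    exact hν1 δ
  · intro δ
    apply i.injective
    rw [hZ', hν2, i.map_neg, hZ']
  · intro k
    apply i.injective
    rw [← hν3 k]
    simp only [wc]
    ext φ
    have h2 : ∀ (w : X), i w φ = φ w := fun w => rfl
    rw [h2]
    have h3 : φ (avg fun ω : Fin m → ℤˣ => walsh {k} ω • Z ω) =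
        avg fun ω : Fin m → ℤˣ => φ (walsh {k} ω • Z ω) := Vale.Agent.P111.map_avg φ.toLinearMap _
    have h4 : (avg fun ω : Fin m → ℤˣ => walsh {k} ω • ν ω) φ =
        avg fun ω : Fin m → ℤˣ => (walsh {k} ω • ν ω) φ := by
      rw [avg, avg, _root_.smul_apply, _root_.sum_apply]
    rw [h3, h4]
    refine avg_congr fun ω => ?_
    rw [map_smul, _root_.smul_apply, ← hZ' ω, h2]

end Vale.Agent.P111.TK
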