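import Vale.Agent.P111.Bdl.B1
import Mathlib.Combinatorics.HalesJewett

/-! Characters of the cube `Fin D → ℤˣ`, indexed by the cube itself. -/

set_option linter.unusedSectionVars false

namespace Vale.Agent.P111.TK

open Finset Vale.Agent.P111

section Chi

variable {D : ℕ}

/-- The coordinates at which `J` equals `-1`. -/
def neg (J : Fin D → ℤˣ) : Finset (Fin D) := Finset.univ.filter fun i => J i = -1

/-- The character indexed by `J`. -/
def chi (J x : Fin D → ℤˣ) : ℤˣ := ∏ i ∈ neg J, x i

theorem chi_eq (J x : Fin D → ℤˣ) : chi J x = ∏ i, if J i = -1 then x i else 1 := by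
  simp [chi, neg, Finset.prod_filter]

theorem chi_mul_left (J J' x : Fin D → ℤˣ) : chi (J * J') x = chi J x * chi J' x := by
  simp only [chi_eq, ← Finset.prod_mul_distrib]
  apply Finset.prod_congr rfl
  intro i _
  rcases Int.units_eq_one_or (J i) with h | h <;> rcases Int.units_eq_one_or (J' i) with h' | h' <;>
    simp [h, h']

theorem chi_mul_right (J x y : Fin D → ℤˣ) : chi J (x * y) = chi J x * chi J y := by
  simp [chi, Finset.prod_mul_distrib]

theorem chi_one_left (x : Fin D → ℤˣ) : chi 1 x = 1 := by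
  simp [chi_eq]

theorem chi_one_right (J : Fin D → ℤˣ) : chi J 1 = 1 := by
  simp [chi]

theorem chi_prod_left {ι : Type*} (T : Finset ι) (J : ι → Fin D → ℤˣ) (x : Fin D → ℤˣ) :
    chi (∏ i ∈ T, J i) x = ∏ i ∈ T, chi (J i) x := by
  classical
  induction T using Finset.induction_on with
  | empty => simp [chi_one_left]
  | insert a s ha ih => rw [Finset.prod_insert ha, Finset.prod_insert ha, chi_mul_left, ih]

theorem sg_chi (J x : Fin D → ℤˣ) : sg (chi J x) = walsh (neg J) x := by
  rw [chi, walsh, H1.sg_prod]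

theorem neg_eq_empty (J : Fin D → ℤˣ) : neg J = ∅ ↔ J = 1 := by
  constructor
  · intro h
    funext i
    have : i ∉ neg J := by rw [h]; simp
    simp only [neg, Finset.mem_filter, Finset.mem_univ, true_and] at this
    exact (Int.units_eq_one_or (J i)).resolve_right this
  · rintro rfl
    simp [neg]

theorem avg_chi (J : Fin D → ℤˣ) :
    (avg fun x : Fin D → ℤˣ => sg (chi J x)) = if J = 1 then 1 else 0 := by
  simp only [sg_chi, avg_walsh]
  by_cases h : J = 1
  · rw [if_pos ((neg_eq_empty J).mpr h), if_pos h]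
  · rw [if_neg (fun h' => h ((neg_eq_empty J).mp h')), if_neg h]

theorem units_mul_self' (u : ℤˣ) : u * u = 1 := Int.units_mul_self u

theorem pi_mul_self {ι : Type*} (u : ι → ℤˣ) : u * u = 1 := by
  funext i
  exact Int.units_mul_self (u i)

theorem mul_eq_one_iff_eq' {ι : Type*} (u v : ι → ℤˣ) : u * v = 1 ↔ u = v := by
  constructor
  · intro h
    calc u = u * (v * v) := by rw [pi_mul_self, mul_one]
      _ = (u * v) * v := by rw [mul_assoc]
      _ = v := by rw [h, one_mul]
  · rintro rfl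
    exact pi_mul_self u

theorem avg_chi_mul_chi (J J' : Fin D → ℤˣ) :
    (avg fun x : Fin D → ℤˣ => sg (chi J x) * sg (chi J' x)) = if J = J' then 1 else 0 := by
  have h : ∀ x : Fin D → ℤˣ, sg (chi J x) * sg (chi J' x) = sg (chi (J * J') x) := by
    intro x
    rw [chi_mul_left, sg_mul]
  simp only [h, avg_chi, mul_eq_one_iff_eq']

/-- characters of a power -/
noncomputable def Chi {M' : ℕ} (b x : Fin M' → Fin D → ℤˣ) : ℝ := ∏ k, sg (chi (b k) (x k))

theorem avg_Chi_mul_Chi {M' : ℕ} (b b' : Fin M' → Fin D → ℤˣ) :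
    (avg fun x : Fin M' → Fin D → ℤˣ => Chi b x * Chi b' x) = if b = b' then 1 else 0 := by
  have h : ∀ x : Fin M' → Fin D → ℤˣ, Chi b x * Chi b' x =
      ∏ k, (sg (chi (b k) (x k)) * sg (chi (b' k) (x k))) := by
    intro x
    rw [Chi, Chi, Finset.prod_mul_distrib]
  simp only [h]
  rw [avg_pi_prod (fun k (z : Fin D → ℤˣ) => sg (chi (b k) z) * sg (chi (b' k) z))]
  simp only [avg_chi_mul_chi]
  split_ifs with hb
  · subst hb
    simp
  · have : ∃ k, b k ≠ b' k := by
      by_contra hc
      push Not at hc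
      exact hb (funext hc)
    obtain ⟨k, hk⟩ := this
    exact Finset.prod_eq_zero (Finset.mem_univ k) (if_neg hk)

/-- Bessel's inequality. -/
theorem bessel {Ω ι : Type*} [Fintype Ω] [Fintype ι] [DecidableEq ι] [Nonempty Ω]
    (e : ι → Ω → ℝ)
    (he : ∀ i j, (avg fun ω => e i ω * e j ω) = if i = j then 1 else 0) (g : Ω → ℝ) :
    ∑ i, (avg fun ω => e i ω * g ω) ^ 2 ≤ avg fun ω => g ω ^ 2 := by
  set c : ι → ℝ := fun i => avg fun ω => e i ω * g ω with hc
  have h0 : 0 ≤ avg fun ω => (g ω - ∑ i, c i * e i ω) ^ 2 := avg_nonneg fun _ => sq_nonneg _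
  have h1 : (avg fun ω => (g ω - ∑ i, c i * e i ω) ^ 2) =
      (avg fun ω => g ω ^ 2) - ∑ i, c i ^ 2 := by
    have e1 : ∀ ω, (g ω - ∑ i, c i * e i ω) ^ 2 = g ω ^ 2 - 2 * ∑ i, c i * (e i ω * g ω) +
        ∑ i, ∑ j, c i * c j * (e i ω * e j ω) := by
      intro ω
      have e2 : (∑ i, c i * e i ω) ^ 2 = ∑ i, ∑ j, c i * c j * (e i ω * e j ω) := by
        rw [sq, Finset.sum_mul_sum]
        apply Finset.sum_congr rfl
        intro i _
        apply Finset.sum_congr rfl
        intro j _
        ring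
      have e3 : ∑ i, c i * (e i ω * g ω) = g ω * ∑ i, c i * e i ω := by
        rw [Finset.mul_sum]
        apply Finset.sum_congr rfl
        intro i _
        ring
      rw [← e2, e3]
      ring
    simp only [e1]
    rw [avg_add, avg_sub, avg_mul_left, avg_sum, avg_sum]
    simp only [avg_sum, avg_mul_left, he]
    have e4 : ∀ i, c i * (avg fun ω => e i ω * g ω) = c i ^ 2 := by
      intro i
      rw [sq]
    simp only [e4]
    have e5 : ∀ i, ∑ j, c i * c j * (if i = j then (1:ℝ) else 0) = c i ^ 2 := by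
      intro i
      simp [sq]
    simp only [e5]
    ring
  rw [h1] at h0
  linarith

/-- The number of large coefficients. -/
theorem card_large_le {Ω ι : Type*} [Fintype Ω] [Fintype ι] [DecidableEq ι] [Nonempty Ω]
    (e : ι → Ω → ℝ)
    (he : ∀ i j, (avg fun ω => e i ω * e j ω) = if i = j then 1 else 0) (g : Ω → ℝ) {B ε : ℝ}
    (hB : ∀ ω, |g ω| ≤ B) (hε : 0 < ε) :
    (#(Finset.univ.filter fun i => ε < |avg fun ω => e i ω * g ω|) : ℝ) ≤ B ^ 2 / ε ^ 2 := by
  rw [le_div_iff₀ (by positivity)]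
  have h1 := bessel e he g
  have h2 : (avg fun ω => g ω ^ 2) ≤ B ^ 2 := by
    have : (avg fun ω => g ω ^ 2) ≤ avg fun _ : Ω => B ^ 2 := by
      apply avg_mono
      intro ω
      rw [← sq_abs]
      have := hB ω
      gcongr
    rwa [avg_const] at this
  refine le_trans ?_ (h1.trans h2)
  have h3 : ∑ i ∈ Finset.univ.filter (fun i => ε < |avg fun ω => e i ω * g ω|), ε ^ 2 ≤
      ∑ i ∈ Finset.univ.filter (fun i => ε < |avg fun ω => e i ω * g ω|),
        (avg fun ω => e i ω * g ω) ^ 2 := by
    apply Finset.sum_le_sum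
    intro i hi
    rw [Finset.mem_filter] at hi
    rw [← sq_abs (avg fun ω => e i ω * g ω)]
    have := hi.2
    gcongr
  rw [Finset.sum_const, nsmul_eq_mul] at h3
  refine h3.trans ?_
  apply Finset.sum_le_sum_of_subset_of_nonneg (Finset.filter_subset _ _)
  intro i _ _
  exact sq_nonneg _

end Chi

end Vale.Agent.P111.TK
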