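import Vale.Agent.P111.TK.Key

/-! Generic maps, the Hales-Jewett theorem and the combinatorial key. -/

set_option linter.unusedSectionVars false

namespace Vale.Agent.P111.TK

open Finset Vale.Agent.P111

section Generic

variable {D : ℕ} {ι : Type} [Fintype ι] [DecidableEq ι]

/-- The linear map determined by `b`, on subsets. -/
def KK (b : ι → Fin D → ℤˣ) (v : Finset ι) : Fin D → ℤˣ := ∏ j ∈ v, b j

/-- A shift. -/
def shift (l : Finset ι) (t : Fin D → ℤˣ) : ι → Fin D → ℤˣ := fun j => if j ∈ l then t else 1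

theorem pow_parity (t : Fin D → ℤˣ) (k : ℕ) : t ^ k = if Odd k then t else 1 := by
  split_ifs with h
  · obtain ⟨m, hm⟩ := h
    rw [hm, pow_succ, pow_mul, sq, pi_mul_self, one_pow, one_mul]
  · rw [Nat.not_odd_iff_even] at h
    obtain ⟨m, hm⟩ := h
    rw [hm, ← two_mul, pow_mul, sq, pi_mul_self, one_pow]

theorem KK_shift (b : ι → Fin D → ℤˣ) (l v : Finset ι) (t : Fin D → ℤˣ) :
    KK (b * shift l t) v = KK b v * if Odd #(v ∩ l) then t else 1 := by
  unfold KK
  simp only [Pi.mul_apply, shift]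
  rw [Finset.prod_mul_distrib, Finset.prod_ite_mem, Finset.prod_const, pow_parity]

theorem avg_shift (l : Finset ι) (F : (ι → Fin D → ℤˣ) → ℝ) :
    avg F = avg fun b : ι → Fin D → ℤˣ => avg fun t : Fin D → ℤˣ => F (b * shift l t) := by
  rw [avg_comm]
  have h : ∀ t : Fin D → ℤˣ, (avg fun b : ι → Fin D → ℤˣ => F (b * shift l t)) = avg F := by
    intro t
    exact avg_comp_equiv (Equiv.mulRight (shift l t)) F
  simp only [h]
  rw [avg_const]

theorem avg_mem (c : Fin D → ℤˣ) (S : Finset (Fin D → ℤˣ)) :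
    (avg fun t : Fin D → ℤˣ => if c * t ∈ S then (1:ℝ) else 0) = #S / 2 ^ D := by
  have h : (avg fun t : Fin D → ℤˣ => if c * t ∈ S then (1:ℝ) else 0) =
      avg fun t : Fin D → ℤˣ => if t ∈ S then (1:ℝ) else 0 :=
    avg_comp_equiv (Equiv.mulLeft c) (fun t : Fin D → ℤˣ => if t ∈ S then (1:ℝ) else 0)
  rw [h, avg, Finset.sum_ite_mem, Finset.univ_inter, Finset.sum_const, nsmul_eq_mul, mul_one,
    smul_eq_mul]
  simp
  ring

theorem exists_sep (v w : Finset ι) (hw : w.Nonempty) (hvw : v ≠ w) :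
    ∃ l : Finset ι, Odd #(w ∩ l) ∧ ¬ Odd #(v ∩ l) := by
  by_cases h : ∃ j ∈ w, j ∉ v
  · obtain ⟨j, hj, hj'⟩ := h
    refine ⟨{j}, ?_, ?_⟩
    · rw [Finset.inter_singleton_of_mem hj]
      simp
    · rw [Finset.inter_singleton_of_notMem hj']
      simp
  · push Not at h
    have hsub : w ⊆ v := h
    obtain ⟨j, hj, hj'⟩ : ∃ j ∈ v, j ∉ w := by
      by_contra hc
      push Not at hc
      exact hvw (Finset.Subset.antisymm hc hsub)
    obtain ⟨i, hi⟩ := hw
    have hij : i ≠ j := by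
      rintro rfl
      exact hj' hi
    refine ⟨{i, j}, ?_, ?_⟩
    · have : w ∩ {i, j} = {i} := by
        ext x
        simp only [Finset.mem_inter, Finset.mem_insert, Finset.mem_singleton]
        constructor
        · rintro ⟨h1, h2 | h2⟩
          · exact h2
          · subst h2
            exact absurd h1 hj'
        · rintro rfl
          exact ⟨hi, Or.inl rfl⟩
      rw [this]
      simp
    · have : v ∩ {i, j} = {i, j} := by
        rw [Finset.inter_eq_right]
        intro x hx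
        simp only [Finset.mem_insert, Finset.mem_singleton] at hx
        rcases hx with rfl | rfl
        · exact hsub hi
        · exact hj
      rw [this, Finset.card_pair hij]
      decide

theorem avg_eq_one (v : Finset ι) (hv : v.Nonempty) :
    (avg fun b : ι → Fin D → ℤˣ => if KK b v = 1 then (1:ℝ) else 0) ≤ 1 / 2 ^ D := by
  obtain ⟨j, hj⟩ := hv
  rw [avg_shift {j}]
  have h1 : ∀ b : ι → Fin D → ℤˣ, (avg fun t : Fin D → ℤˣ =>
      if KK (b * shift {j} t) v = 1 then (1:ℝ) else 0) = 1 / 2 ^ D := by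
    intro b
    have h2 : ∀ t : Fin D → ℤˣ, (if KK (b * shift {j} t) v = 1 then (1:ℝ) else 0) =
        if KK b v * t ∈ ({1} : Finset (Fin D → ℤˣ)) then (1:ℝ) else 0 := by
      intro t
      rw [KK_shift, Finset.inter_singleton_of_mem hj]
      simp
    simp only [h2]
    rw [avg_mem]
    simp
  simp only [h1]
  rw [avg_const]

theorem avg_bad (v w : Finset ι) (hw : w.Nonempty) (hvw : v ≠ w)
    (bd : (Fin D → ℤˣ) → Finset (Fin D → ℤˣ)) {β : ℝ} (hβ : ∀ J, (#(bd J) : ℝ) ≤ β) :
    (avg fun b : ι → Fin D → ℤˣ => if KK b w ∈ bd (KK b v) then (1:ℝ) else 0) ≤ β / 2 ^ D := by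
  obtain ⟨l, hl1, hl2⟩ := exists_sep v w hw hvw
  rw [avg_shift l]
  have h1 : ∀ b : ι → Fin D → ℤˣ, (avg fun t : Fin D → ℤˣ =>
      if KK (b * shift l t) w ∈ bd (KK (b * shift l t) v) then (1:ℝ) else 0) ≤ β / 2 ^ D := by
    intro b
    have h2 : ∀ t : Fin D → ℤˣ,
        (if KK (b * shift l t) w ∈ bd (KK (b * shift l t) v) then (1:ℝ) else 0) =
        if KK b w * t ∈ bd (KK b v) then (1:ℝ) else 0 := by
      intro t
      rw [KK_shift, KK_shift, if_pos hl1, if_neg hl2, mul_one]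
    simp only [h2]
    rw [avg_mem]
    have := hβ (KK b v)
    gcongr
  refine (avg_mono h1).trans ?_
  rw [avg_const]

/-- The generic map. -/
theorem generic (bd : (Fin D → ℤˣ) → Finset (Fin D → ℤˣ)) {β : ℝ}
    (hβ : ∀ J, (#(bd J) : ℝ) ≤ β)
    (hD : (2:ℝ) ^ Fintype.card ι + (2:ℝ) ^ Fintype.card ι * (2:ℝ) ^ Fintype.card ι * β < 2 ^ D) :
    ∃ b : ι → Fin D → ℤˣ, (∀ v : Finset ι, v.Nonempty → KK b v ≠ 1) ∧
      ∀ v w : Finset ι, v.Nonempty → w.Nonempty → v ≠ w → KK b w ∉ bd (KK b v) := by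
  by_contra hcon
  push Not at hcon
  have hβ0 : 0 ≤ β := le_trans (Nat.cast_nonneg _) (hβ 1)
  set F : (ι → Fin D → ℤˣ) → ℝ := fun b =>
    (∑ v : Finset ι, if v.Nonempty ∧ KK b v = 1 then (1:ℝ) else 0) +
    ∑ v : Finset ι, ∑ w : Finset ι,
      if (v.Nonempty ∧ w.Nonempty ∧ v ≠ w) ∧ KK b w ∈ bd (KK b v) then (1:ℝ) else 0 with hF
  have h1 : ∀ b, 1 ≤ F b := by
    intro b
    have n1 : 0 ≤ ∑ v : Finset ι, (if v.Nonempty ∧ KK b v = 1 then (1:ℝ) else 0) :=
      Finset.sum_nonneg fun v _ => by split_ifs <;> norm_num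
    have n2 : 0 ≤ ∑ v : Finset ι, ∑ w : Finset ι,
      (if (v.Nonempty ∧ w.Nonempty ∧ v ≠ w) ∧ KK b w ∈ bd (KK b v) then (1:ℝ) else 0) :=
      Finset.sum_nonneg fun v _ => Finset.sum_nonneg fun w _ => by split_ifs <;> norm_num
    by_cases hb : ∀ v : Finset ι, v.Nonempty → KK b v ≠ 1
    · obtain ⟨v, w, hv, hw, hvw, hmem⟩ := hcon b hb
      have e1 : (1:ℝ) ≤ ∑ w' : Finset ι,
          (if (v.Nonempty ∧ w'.Nonempty ∧ v ≠ w') ∧ KK b w' ∈ bd (KK b v) then (1:ℝ) else 0) := by
        have := Finset.single_le_sum (f := fun w' : Finset ι =>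
          if (v.Nonempty ∧ w'.Nonempty ∧ v ≠ w') ∧ KK b w' ∈ bd (KK b v) then (1:ℝ) else 0)
          (fun w' _ => by split_ifs <;> norm_num) (Finset.mem_univ w)
        rw [if_pos ⟨⟨hv, hw, hvw⟩, hmem⟩] at this
        exact this
      have e2 := Finset.single_le_sum (f := fun v' : Finset ι => ∑ w' : Finset ι,
          (if (v'.Nonempty ∧ w'.Nonempty ∧ v' ≠ w') ∧ KK b w' ∈ bd (KK b v') then (1:ℝ) else 0))
          (fun v' _ => Finset.sum_nonneg fun w' _ => by split_ifs <;> norm_num)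
          (Finset.mem_univ v)
      show 1 ≤ (∑ v : Finset ι, if v.Nonempty ∧ KK b v = 1 then (1:ℝ) else 0) +
        ∑ v : Finset ι, ∑ w : Finset ι,
        if (v.Nonempty ∧ w.Nonempty ∧ v ≠ w) ∧ KK b w ∈ bd (KK b v) then (1:ℝ) else 0
      linarith
    · push Not at hb
      obtain ⟨v, hv, hv1⟩ := hb
      have e1 := Finset.single_le_sum (f := fun v' : Finset ι =>
          if v'.Nonempty ∧ KK b v' = 1 then (1:ℝ) else 0)
          (fun v' _ => by split_ifs <;> norm_num) (Finset.mem_univ v)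
      rw [if_pos ⟨hv, hv1⟩] at e1
      show 1 ≤ (∑ v : Finset ι, if v.Nonempty ∧ KK b v = 1 then (1:ℝ) else 0) +
        ∑ v : Finset ι, ∑ w : Finset ι,
        if (v.Nonempty ∧ w.Nonempty ∧ v ≠ w) ∧ KK b w ∈ bd (KK b v) then (1:ℝ) else 0
      linarith
  have h2 : (1:ℝ) ≤ avg F := by
    have := avg_mono h1
    rwa [avg_const] at this
  have h3 : avg F ≤ (2:ℝ) ^ Fintype.card ι * (1 / 2 ^ D) +
      (2:ℝ) ^ Fintype.card ι * ((2:ℝ) ^ Fintype.card ι * (β / 2 ^ D)) := by
    rw [hF, avg_add, avg_sum, avg_sum]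
    simp only [avg_sum]
    apply add_le_add
    · have e1 : ∀ v : Finset ι, (avg fun b : ι → Fin D → ℤˣ =>
          if v.Nonempty ∧ KK b v = 1 then (1:ℝ) else 0) ≤ 1 / 2 ^ D := by
        intro v
        by_cases hv : v.Nonempty
        · simp only [hv, true_and]
          exact avg_eq_one v hv
        · simp only [hv, false_and, if_false]
          rw [avg_zero]
          positivity
      refine (Finset.sum_le_sum fun v _ => e1 v).trans (le_of_eq ?_)
      rw [Finset.sum_const, nsmul_eq_mul]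
      simp
    · have e1 : ∀ v w : Finset ι, (avg fun b : ι → Fin D → ℤˣ =>
          if (v.Nonempty ∧ w.Nonempty ∧ v ≠ w) ∧ KK b w ∈ bd (KK b v) then (1:ℝ) else 0) ≤
          β / 2 ^ D := by
        intro v w
        by_cases hv : v.Nonempty ∧ w.Nonempty ∧ v ≠ w
        · have := avg_bad v w hv.2.1 hv.2.2 bd hβ
          refine le_trans (le_of_eq ?_) this
          apply avg_congr
          intro b
          simp only [hv, ne_eq, not_false_eq_true, true_and]
        · simp only [hv, false_and, if_false]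
          rw [avg_zero]
          positivity
      refine (Finset.sum_le_sum fun v _ => Finset.sum_le_sum fun w _ => e1 v w).trans
        (le_of_eq ?_)
      simp only [Finset.sum_const, nsmul_eq_mul]
      simp
  have h4 : (2:ℝ) ^ Fintype.card ι * (1 / 2 ^ D) +
      (2:ℝ) ^ Fintype.card ι * ((2:ℝ) ^ Fintype.card ι * (β / 2 ^ D)) < 1 := by
    have e1 : (2:ℝ) ^ Fintype.card ι * (1 / 2 ^ D) +
      (2:ℝ) ^ Fintype.card ι * ((2:ℝ) ^ Fintype.card ι * (β / 2 ^ D)) =
      ((2:ℝ) ^ Fintype.card ι + (2:ℝ) ^ Fintype.card ι * (2:ℝ) ^ Fintype.card ι * β) / 2 ^ D := by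
      ring
    rw [e1, div_lt_one (by positivity)]
    exact hD
  linarith

theorem prod_KK {M : ℕ} (b : ι → Fin D → ℤˣ) (V : Fin M → Finset ι) (T : Finset (Fin M)) :
    ∏ i ∈ T, KK b (V i) =
      KK b (Finset.univ.filter fun j => Odd #(T.filter fun i => j ∈ V i)) := by
  have h1 : ∀ i, KK b (V i) = ∏ j, if j ∈ V i then b j else 1 := by
    intro i
    rw [KK, Finset.prod_ite_mem, Finset.univ_inter]
  simp only [h1]
  rw [Finset.prod_comm, KK, Finset.prod_filter]
  apply Finset.prod_congr rfl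
  intro j _
  rw [← Finset.prod_filter, Finset.prod_const, pow_parity]

end Generic

section HJ

variable {M : ℕ} {κ : Type} [Fintype κ] [DecidableEq κ]

/-- The subset coded by a word. -/
def vw (w : κ → Finset (Fin M)) : Finset (Option (κ × Fin M)) :=
  Finset.univ.filter fun o => ∀ p, o = some p → p.2 ∈ w p.1

theorem none_mem_vw (w : κ → Finset (Fin M)) : none ∈ vw w := by
  simp [vw]

theorem some_mem_vw (w : κ → Finset (Fin M)) (p : κ × Fin M) : some p ∈ vw w ↔ p.2 ∈ w p.1 := by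
  rw [vw, Finset.mem_filter]
  constructor
  · intro h
    exact h.2 p rfl
  · intro h
    refine ⟨Finset.mem_univ _, ?_⟩
    intro p' hp'
    have := Option.some_injective _ hp'
    rwa [← this]

theorem odd_vw (l : Combinatorics.Line (Finset (Fin M)) κ) (T : Finset (Fin M)) (hT : Odd #T) :
    (Finset.univ.filter fun j => Odd #(T.filter fun i => j ∈ vw (l {i}))) = vw (l T) := by
  ext o
  rw [Finset.mem_filter]
  rcases o with _ | p
  · simp only [none_mem_vw, Finset.filter_true, Finset.mem_univ, true_and, iff_true]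
    simpa using hT
  · simp only [some_mem_vw, Finset.mem_univ, true_and, Combinatorics.Line.coe_apply]
    rcases h : l.idxFun p.1 with _ | S
    · simp only [Option.getD_none, Finset.mem_singleton]
      by_cases hp : p.2 ∈ T
      · have : (T.filter fun i => p.2 = i) = {p.2} := by
          ext i
          simp only [Finset.mem_filter, Finset.mem_singleton]
          constructor
          · rintro ⟨_, h2⟩
            exact h2.symm
          · rintro rfl
            exact ⟨hp, rfl⟩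
        rw [this]
        simp [hp]
      · have : (T.filter fun i => p.2 = i) = ∅ := by
          apply Finset.filter_false_of_mem
          intro i hi h2
          exact hp (h2 ▸ hi)
        rw [this]
        simp [hp]
    · simp only [Option.getD_some]
      by_cases hp : p.2 ∈ S
      · simp [hp, hT]
      · simp [hp]

theorem even_vw (l : Combinatorics.Line (Finset (Fin M)) κ) (T : Finset (Fin M)) (hT : Even #T)
    (hne : T.Nonempty) :
    none ∉ (Finset.univ.filter fun j => Odd #(T.filter fun i => j ∈ vw (l {i}))) ∧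
    (Finset.univ.filter fun j => Odd #(T.filter fun i => j ∈ vw (l {i}))).Nonempty := by
  constructor
  · simp only [Finset.mem_filter, none_mem_vw, Finset.filter_true, Finset.mem_univ, true_and]
    simpa using hT
  · obtain ⟨i', hi'⟩ := l.proper
    obtain ⟨a, ha⟩ := hne
    refine ⟨some (i', a), ?_⟩
    simp only [Finset.mem_filter, some_mem_vw, Finset.mem_univ, true_and,
      Combinatorics.Line.coe_apply, hi', Option.getD_none, Finset.mem_singleton]
    have : (T.filter fun i => a = i) = {a} := by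
      ext i
      simp only [Finset.mem_filter, Finset.mem_singleton]
      constructor
      · rintro ⟨_, h2⟩
        exact h2.symm
      · rintro rfl
        exact ⟨ha, rfl⟩
    rw [this]
    simp

end HJ

theorem abs_hh_le {D M' : ℕ} (n : (Fin M' → Fin D → ℤˣ) → (Fin M' → ℤˣ) → (Fin D → ℤˣ) → ℝ)
    {B : ℝ} (hn : ∀ x δ J, |n x δ J| ≤ B) (J : Fin D → ℤˣ) (y : Fin M' → ℤˣ) :
    |hh n J y| ≤ B := by
  unfold hh
  refine (abs_avg_le _).trans ?_
  have h := avg_mono (f := fun x : Fin M' → Fin D → ℤˣ =>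
    |n x (fun k => y k * chi J (x k)) J|) (g := fun _ => B) (fun x => hn _ _ _)
  rwa [avg_const] at h

theorem add_halves_le {a b c e : ℝ} (h1 : |a - b| ≤ e / 2) (h2 : |b - c| ≤ e / 2) :
    |a - c| ≤ e := by
  have h3 := abs_sub_le a b c
  linarith

/-- The combinatorial key. -/
theorem key (M M' : ℕ) (B ε : ℝ) (hε : 0 < ε) : ∃ D0 : ℕ, ∀ D, D0 ≤ D →
    ∀ n : (Fin M' → Fin D → ℤˣ) → (Fin M' → ℤˣ) → (Fin D → ℤˣ) → ℝ,
    (∀ x δ J, |n x δ J| ≤ B) →
    ∃ (J : Fin M → Fin D → ℤˣ) (J0 : Fin D → ℤˣ),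
      (∀ T : Finset (Fin M), T.Nonempty → JT J T ≠ 1) ∧
      ∀ (A : Fin M → Fin M' → ℤˣ) (T : Finset (Fin M)), Odd #T →
        |(avg fun δ : Fin M' → ℤˣ => avg fun x : Fin M' → Fin D → ℤˣ =>
          WW J x (fun i k => A i k * δ k) * n x δ (JT J T)) - hh n J0 (AT A T)| ≤ ε := by
  obtain ⟨N, hN⟩ := exists_nat_ge (B / (ε / 2))
  obtain ⟨κ, hκ, hHJ⟩ := Combinatorics.Line.exists_mono_in_high_dimension (Finset (Fin M))
    ((Fin M' → ℤˣ) → Set.Icc (-(N:ℤ)) N)
  classical
  set ε' : ℝ := ε / (2 * ((2 : ℝ) ^ M) ^ M') with hε'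
  have hε'0 : 0 < ε' := by positivity
  set β : ℝ := 2 ^ M' * (B ^ 2 / ε' ^ 2 * M') with hβ
  set m : ℕ := Fintype.card (Option (κ × Fin M)) with hm
  obtain ⟨D0, hD0⟩ := pow_unbounded_of_one_lt ((2:ℝ) ^ m + (2:ℝ) ^ m * (2:ℝ) ^ m * β)
    (by norm_num : (1:ℝ) < 2)
  refine ⟨D0, ?_⟩
  intro D hD n hn
  have hD' : (2:ℝ) ^ m + (2:ℝ) ^ m * (2:ℝ) ^ m * β < 2 ^ D :=
    hD0.trans_le (pow_le_pow_right₀ (by norm_num) hD)
  obtain ⟨b, hb1, hb2⟩ := generic (ι := Option (κ × Fin M)) (bad n ε')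
    (fun J => card_bad_le n hn hε'0 J) hD'
  have hcol : ∀ (J : Fin D → ℤˣ) (y : Fin M' → ℤˣ),
      ⌊hh n J y / (ε / 2)⌋ ∈ Set.Icc (-(N:ℤ)) N := by
    intro J y
    have h1 := abs_hh_le n hn J y
    have h2 := abs_le.mp h1
    have hε2 : 0 < ε / 2 := by positivity
    have h3 : hh n J y / (ε / 2) ≤ N := by
      refine le_trans ?_ hN
      gcongr
      exact h2.2
    have h4 : -(N:ℝ) ≤ hh n J y / (ε / 2) := by
      have : -(B / (ε / 2)) ≤ hh n J y / (ε / 2) := by
        rw [← neg_div]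
        gcongr
        exact h2.1
      linarith
    constructor
    · rw [Int.le_floor]
      push_cast
      exact h4
    · have := Int.floor_le_floor h3
      simpa using this
  obtain ⟨C, hC⟩ : ∃ C : (κ → Finset (Fin M)) → (Fin M' → ℤˣ) → Set.Icc (-(N:ℤ)) N,
      ∀ w y, (C w y : ℤ) = ⌊hh n (KK b (vw w)) y / (ε / 2)⌋ :=
    ⟨fun w y => ⟨⌊hh n (KK b (vw w)) y / (ε / 2)⌋, hcol _ _⟩, fun _ _ => rfl⟩
  obtain ⟨l, c, hl⟩ := hHJ C
  have hJodd : ∀ T : Finset (Fin M), Odd #T →
      JT (fun i => KK b (vw (l {i}))) T = KK b (vw (l T)) := by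
    intro T hT
    rw [JT, prod_KK, odd_vw l T hT]
  refine ⟨fun i => KK b (vw (l {i})), KK b (vw (l ∅)), ?_, ?_⟩
  · intro T hT
    rcases Nat.even_or_odd #T with h | h
    · rw [JT, prod_KK]
      exact hb1 _ (even_vw l T h hT).2
    · rw [hJodd T h]
      exact hb1 _ ⟨none, none_mem_vw _⟩
  · intro A T hT
    have h1 := estimate n hε'0.le (fun i => KK b (vw (l {i}))) A T hT (by
      intro S hS hSne
      rw [hJodd T hT, JT, prod_KK]
      have h2 := even_vw l S hS hSne
      apply hb2 _ _ ⟨none, none_mem_vw _⟩ h2.2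
      intro heq
      apply h2.1
      rw [← heq]
      exact none_mem_vw _)
    have h2 : |hh n (KK b (vw (l T))) (AT A T) - hh n (KK b (vw (l ∅))) (AT A T)| ≤ ε / 2 := by
      have h3 : C (l T) = C (l ∅) := (hl T).trans (hl ∅).symm
      have h4 : ⌊hh n (KK b (vw (l T))) (AT A T) / (ε / 2)⌋ =
          ⌊hh n (KK b (vw (l ∅))) (AT A T) / (ε / 2)⌋ := by
        rw [← hC, ← hC, h3]
      have h5 := Int.abs_sub_lt_one_of_floor_eq_floor h4
      rw [← sub_div, abs_div, abs_of_pos (by positivity : (0:ℝ) < ε / 2),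
        div_lt_one (by positivity)] at h5
      exact h5.le
    have h6 : ((2 : ℝ) ^ M) ^ M' * ε' = ε / 2 := by
      rw [hε']
      field_simp
    rw [h6] at h1
    have h8 := hJodd T hT
    rw [← h8] at h2
    exact add_halves_le h1 h2

end Vale.Agent.P111.TK
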