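import Vale.Agent.P111.TK.Gen
import Vale.Agent.P111.TK.Lift
import Vale.Agent.P111.TI.Core

/-!
The theorem on translation invariant norms, finite dimensional form.
-/

namespace Vale.Agent.P111.TK

open Finset Vale.Agent.P111

universe v

/-- The norm of `E`, transported by `e`, is a translation invariant norm on the functions on the
group `{-1,1}^D` which lies between the supremum norm and the Wiener algebra norm. -/
structure Adm (C : ℝ) {D : ℕ} {E : Type v} [NormedAddCommGroup E] [NormedSpace ℝ E]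
    (e : E ≃ₗ[ℝ] ((Fin D → ℤˣ) → ℝ)) : Prop where
  sup_le : ∀ f x, |e f x| ≤ C * ‖f‖
  trans : ∀ f g, ‖e.symm (fun x => e f (x * g))‖ ≤ ‖f‖
  char : ∀ S : Finset (Fin D), ‖e.symm (walsh S)‖ ≤ C

theorem norm_avg_le' {Ω : Type*} [Fintype Ω] [Nonempty Ω] {E : Type*} [NormedAddCommGroup E]
    [NormedSpace ℝ E] (f : Ω → E) (b : ℝ) (h : ∀ ω, ‖f ω‖ ≤ b) : ‖avg f‖ ≤ b := by
  have hc : (0 : ℝ) < (Fintype.card Ω : ℝ) := by exact_mod_cast Fintype.card_pos
  rw [avg, norm_smul, norm_inv, Real.norm_of_nonneg hc.le, inv_mul_le_iff₀ hc]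
  refine (norm_sum_le _ _).trans ?_
  refine (Finset.sum_le_sum fun ω _ => h ω).trans ?_
  simp

/-- the even Walsh coefficients of an odd function vanish -/
theorem wc_even {E : Type*} [AddCommGroup E] [Module ℝ E] {M : ℕ} (Z : (Fin M → ℤˣ) → E)
    (hZ : ∀ δ, Z (-δ) = - Z δ) (T : Finset (Fin M)) (hT : Even #T) : wc T Z = 0 := by
  have h1 : wc T Z = avg fun ω : Fin M → ℤˣ => walsh T (-1 * ω) • Z (-1 * ω) := by
    rw [wc, ← avg_comp_equiv (Equiv.mulLeft (-1 : Fin M → ℤˣ))]
    rfl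
  have h2 : ∀ ω : Fin M → ℤˣ, walsh T (-1 * ω) • Z (-1 * ω) = - (walsh T ω • Z ω) := by
    intro ω
    rw [walsh_mul]
    have h3 : walsh T (-1 : Fin M → ℤˣ) = 1 := by
      simp only [walsh, Pi.neg_apply, Pi.one_apply, sg_neg_one, Finset.prod_const]
      exact hT.neg_one_pow
    have h4 : (-1 : Fin M → ℤˣ) * ω = -ω := by
      ext i; simp
    rw [h3, h4, hZ, one_mul, smul_neg]
  have h5 : wc T Z = - wc T Z := by
    conv_lhs => rw [h1]
    rw [avg_congr h2, avg_neg]; rfl
  have h6 : (2 : ℝ) • wc T Z = 0 := by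
    rw [two_smul]
    nth_rewrite 1 [h5]
    exact neg_add_cancel _
  exact (smul_eq_zero.mp h6).resolve_left (by norm_num)

section

variable {C : ℝ} {D : ℕ} {E : Type v} [NormedAddCommGroup E] [NormedSpace ℝ E]
  {e : E ≃ₗ[ℝ] ((Fin D → ℤˣ) → ℝ)}

theorem e_avg {Ω : Type*} [Fintype Ω] (f : Ω → E) (x : Fin D → ℤˣ) :
    e (avg f) x = avg fun ω => e (f ω) x := by
  have := map_avg (e : E →ₗ[ℝ] ((Fin D → ℤˣ) → ℝ)) f
  have h2 : e (avg f) = avg fun ω => e (f ω) := this
  rw [h2]
  exact map_avg (LinearMap.proj x : ((Fin D → ℤˣ) → ℝ) →ₗ[ℝ] ℝ) (fun ω => e (f ω))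

/-- characters as elements of `E` -/
theorem Adm.chi_le (he : Adm C e) (J : Fin D → ℤˣ) : ‖e.symm fun x => sg (chi J x)‖ ≤ C := by
  have : (fun x => sg (chi J x)) = walsh (neg J) := funext fun x => sg_chi J x
  rw [this]
  exact he.char _

theorem u_lift {r : ℝ} (hr : 2 ≤ r) (hC : 1 ≤ C) (he : Adm C e)
    (hE : CotypeWith r C (E →L[ℝ] ℝ)) {M : ℕ} (J : Fin M → Fin D → ℤˣ) :
    ∃ c : Finset (Fin M) → ℝ, (∀ T, Even #T → c T = 0) ∧ (∀ i, c {i} = 1) ∧
      ‖e.symm (fun x => ∑ T, c T * sg (chi (JT J T) x))‖ ≤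
        3 * C ^ 2 * (M : ℝ) ^ (1 - 1 / r) := by
  have : FiniteDimensional ℝ E := Module.Finite.equiv e.symm
  obtain ⟨Z, hZ1, hZ2, hZ3⟩ := lift_fd hr (by linarith) (by linarith : 0 ≤ C) hE
    (fun i : Fin M => e.symm fun x => sg (chi (J i) x)) (fun i => he.chi_le (J i))
  -- the averaged function
  set z : E := avg fun g : Fin D → ℤˣ => e.symm fun x => e (Z fun i => chi (J i) g) (x * g) with hz
  set c : Finset (Fin M) → ℝ := fun T =>
    avg fun y : Fin D → ℤˣ => sg (chi (JT J T) y) * e (wc T Z) y with hc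
  have hez : ∀ x, e z x = ∑ T, c T * sg (chi (JT J T) x) := by
    intro x
    rw [hz, e_avg]
    simp only [LinearEquiv.apply_symm_apply]
    have h1 : ∀ g : Fin D → ℤˣ, e (Z fun i => chi (J i) g) (x * g) =
        ∑ T : Finset (Fin M), sg (chi (JT J T) g) * e (wc T Z) (x * g) := by
      intro g
      have h2 := sum_walsh_smul_wc Z (fun i => chi (J i) g)
      rw [← h2, map_sum, Finset.sum_apply]
      refine Finset.sum_congr rfl fun T _ => ?_
      rw [map_smul, Pi.smul_apply, smul_eq_mul]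
      congr 1
      rw [JT, chi_prod_left, H1.sg_prod]; rfl
    simp only [h1]
    rw [avg_sum]
    refine Finset.sum_congr rfl fun T _ => ?_
    rw [hc]
    simp only
    rw [← avg_mul_right]
    refine Eq.trans (avg_congr fun g => ?_) (avg_comp_equiv (Equiv.mulLeft x)
      fun y => sg (chi (JT J T) y) * e (wc T Z) y * sg (chi (JT J T) x))
    simp only [Equiv.coe_mulLeft, chi_mul_right, sg_mul]
    have := sg_mul_self (chi (JT J T) x)
    linear_combination (-(sg (chi (JT J T) g) * e (wc T Z) (x * g))) * this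
  refine ⟨c, ?_, ?_, ?_⟩
  · intro T hT
    simp only [hc, wc_even Z hZ2 T hT, map_zero, Pi.zero_apply, mul_zero]
    exact avg_zero
  · intro i
    simp only [hc, hZ3 i, JT, Finset.prod_singleton, LinearEquiv.apply_symm_apply, sg_mul_self]
    exact avg_const _
  · have h1 : e.symm (fun x => ∑ T, c T * sg (chi (JT J T) x)) = z := by
      rw [LinearEquiv.symm_apply_eq]
      funext x
      exact (hez x).symm
    rw [h1]
    refine norm_avg_le' _ _ fun g => ?_
    refine (he.trans _ g).trans ((hZ1 _).trans (le_of_eq ?_))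
    ring

/-- The value of a function at a point, as a functional. -/
noncomputable def evalE (he : Adm C e) (x : Fin D → ℤˣ) : E →L[ℝ] ℝ :=
  LinearMap.mkContinuous ((LinearMap.proj x : ((Fin D → ℤˣ) → ℝ) →ₗ[ℝ] ℝ).comp
    (e : E →ₗ[ℝ] ((Fin D → ℤˣ) → ℝ))) C (fun f => by
      rw [Real.norm_eq_abs]; exact he.sup_le f x)

theorem evalE_apply (he : Adm C e) (x : Fin D → ℤˣ) (f : E) : evalE he x f = e f x := rfl

theorem norm_evalE_le (he : Adm C e) (hC : 0 ≤ C) (x : Fin D → ℤˣ) : ‖evalE he x‖ ≤ C :=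
  LinearMap.mkContinuous_norm_le _ hC _

end

section

variable {M M' D : ℕ}

theorem WW_nonneg (J : Fin M → Fin D → ℤˣ) (x : Fin M' → Fin D → ℤˣ)
    (A : Fin M → Fin M' → ℤˣ) : 0 ≤ WW J x A := by
  unfold WW
  refine Finset.prod_nonneg fun i _ => Finset.prod_nonneg fun k _ => ?_
  have := abs_le.mp (abs_sg (A i k * chi (J i) (x k))).le
  rw [sg_mul] at this
  linarith [this.1]

/-- independent characters are independent signs -/
theorem avg_indep {J : Fin M → Fin D → ℤˣ} (hJ : ∀ T : Finset (Fin M), T.Nonempty → JT J T ≠ 1)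
    (φ : (Fin M → ℤˣ) → ℝ) : (avg fun g : Fin D → ℤˣ => φ fun i => chi (J i) g) = avg φ := by
  have h0 : ∀ ε : Fin M → ℤˣ, φ ε = ∑ S : Finset (Fin M), walsh S ε * wc S φ :=
    fun ε => (sum_walsh_smul_wc φ ε).symm
  have h1 : (avg fun g : Fin D → ℤˣ => φ fun i => chi (J i) g) =
      ∑ S : Finset (Fin M), (avg fun g : Fin D → ℤˣ => walsh S fun i => chi (J i) g) *
        wc S φ := by
    rw [avg_congr fun g : Fin D → ℤˣ => h0 fun i => chi (J i) g, avg_sum]
    exact Finset.sum_congr rfl fun S _ => avg_mul_right _ _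
  have h2 : avg φ = ∑ S : Finset (Fin M), (avg fun ε : Fin M → ℤˣ => walsh S ε) * wc S φ := by
    rw [avg_congr h0, avg_sum]
    exact Finset.sum_congr rfl fun S _ => avg_mul_right _ _
  rw [h1, h2]
  refine Finset.sum_congr rfl fun S _ => ?_
  congr 1
  rw [avg_walsh]
  have h3 : ∀ g : Fin D → ℤˣ, walsh S (fun i => chi (J i) g) = sg (chi (JT J S) g) := by
    intro g
    rw [JT, chi_prod_left, H1.sg_prod]; rfl
  rw [avg_congr h3, avg_chi]
  by_cases hS : S = ∅
  · subst hS; simp [JT]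
  · rw [if_neg hS, if_neg (hJ S (Finset.nonempty_iff_ne_empty.mpr hS))]

theorem exists_indep {J : Fin M → Fin D → ℤˣ}
    (hJ : ∀ T : Finset (Fin M), T.Nonempty → JT J T ≠ 1) (ε : Fin M → ℤˣ) :
    ∃ g : Fin D → ℤˣ, ∀ i, chi (J i) g = ε i := by
  classical
  by_contra h
  push Not at h
  have h1 := avg_indep hJ (fun η : Fin M → ℤˣ => if η = ε then (1 : ℝ) else 0)
  have h2 : (avg fun g : Fin D → ℤˣ => if (fun i => chi (J i) g) = ε then (1 : ℝ) else 0) = 0 := by
    refine (avg_congr fun g => ?_).trans (avg_zero (Ω := Fin D → ℤˣ) (E := ℝ))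
    obtain ⟨i, hi⟩ := h g
    rw [if_neg]
    intro h3
    exact hi (congrFun h3 i)
  have h3 : (avg fun η : Fin M → ℤˣ => if η = ε then (1 : ℝ) else 0) =
      ((Fintype.card (Fin M → ℤˣ) : ℝ))⁻¹ := by
    simp [avg]
  rw [h2, h3] at h1
  have : (0 : ℝ) < ((Fintype.card (Fin M → ℤˣ) : ℝ))⁻¹ := by
    have : (0 : ℝ) < (Fintype.card (Fin M → ℤˣ) : ℝ) := by exact_mod_cast Fintype.card_pos
    positivity
  linarith

/-- the weight has mean one -/
theorem avg_WW {J : Fin M → Fin D → ℤˣ} (hJ : ∀ T : Finset (Fin M), T.Nonempty → JT J T ≠ 1)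
    (A : Fin M → Fin M' → ℤˣ) : (avg fun x : Fin M' → Fin D → ℤˣ => WW J x A) = 1 := by
  have h1 : ∀ x : Fin M' → Fin D → ℤˣ, WW J x A =
      ∏ k, (fun (k : Fin M') (t : Fin D → ℤˣ) => ∏ i, (1 + sg (A i k) * sg (chi (J i) t))) k
        (x k) := by
    intro x
    unfold WW
    rw [Finset.prod_comm]
  rw [avg_congr h1,
    avg_pi_prod fun (k : Fin M') (t : Fin D → ℤˣ) => ∏ i, (1 + sg (A i k) * sg (chi (J i) t))]
  refine Finset.prod_eq_one fun k _ => ?_
  have h2 := avg_indep hJ (fun ε : Fin M → ℤˣ => ∏ i, (1 + sg (A i k) * sg (ε i)))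
  simp only at h2 ⊢
  rw [h2, avg_pi_prod fun i (u : ℤˣ) => 1 + sg (A i k) * sg u]
  refine Finset.prod_eq_one fun i _ => ?_
  rw [avg_units]
  simp only [sg_one, sg_neg_one]
  ring

end

/-- The theorem in finite dimensional, quantitative form. -/
theorem main (q r C : ℝ) (hq : 2 ≤ q) (hr : 2 ≤ r) (hC : 1 ≤ C) : ∃ D₀ : ℕ, ∀ D ≥ D₀,
    ∀ (E : Type v) [NormedAddCommGroup E] [NormedSpace ℝ E] (e : E ≃ₗ[ℝ] ((Fin D → ℤˣ) → ℝ)),
      Adm C e → CotypeWith q C E → CotypeWith r C (E →L[ℝ] ℝ) → False := by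
  have hC0 : 0 ≤ C := by linarith
  have hC3 : 1 ≤ C ^ 3 := one_le_pow₀ hC
  obtain ⟨M, M', hM, hM', hcore⟩ := TI.core q r (4 * C ^ 3) hq hr (by linarith)
  set m1 : ℝ := (M : ℝ) ^ (1 - 1 / r) with hm1
  set m2 : ℝ := (M' : ℝ) ^ (1 - 1 / q) with hm2
  have hm1' : 1 ≤ m1 := by
    apply Real.one_le_rpow
    · exact_mod_cast Nat.one_le_iff_ne_zero.mpr hM
    · have : 1 / r ≤ 1 := by rw [div_le_one (by linarith)]; linarith
      linarith
  have hm2' : 1 ≤ m2 := by
    apply Real.one_le_rpow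
    · exact_mod_cast Nat.one_le_iff_ne_zero.mpr hM'
    · have : 1 / q ≤ 1 := by rw [div_le_one (by linarith)]; linarith
      linarith
  set K : ℝ := 4 * C ^ 3 * m1 with hK
  have hK0 : 0 < K := by positivity
  set ε : ℝ := 1 / (2 ^ M * K) with hε
  have hε0 : 0 < ε := by positivity
  obtain ⟨D₀, hD₀⟩ := key M M' (4 * C ^ 3 * m2) ε hε0
  refine ⟨D₀, fun D hD E _ _ e he hE hE' => ?_⟩
  -- the lifts of the evaluations
  have hν := fun x : Fin M' → Fin D → ℤˣ => lift_sup hq hC0 hC0 hE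
    (fun k => evalE he (x k)) (fun k => norm_evalE_le he hC0 (x k))
  choose ν hν1 hν2 hν3 using hν
  set n : (Fin M' → Fin D → ℤˣ) → (Fin M' → ℤˣ) → (Fin D → ℤˣ) → ℝ :=
    fun x δ J => ν x δ (e.symm fun t => sg (chi J t)) with hn
  have hn1 : ∀ x δ J, |n x δ J| ≤ 3 * C ^ 3 * m2 := by
    intro x δ J
    have h1 := (ν x δ).le_opNorm (e.symm fun t => sg (chi J t))
    rw [Real.norm_eq_abs] at h1
    refine h1.trans ?_
    calc ‖ν x δ‖ * ‖e.symm fun t => sg (chi J t)‖ ≤ (3 * C * C * m2) * C :=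
          mul_le_mul (hν1 x δ) (he.chi_le J) (norm_nonneg _) (by positivity)
      _ = _ := by ring
  have hm : 3 * C ^ 3 * m2 ≤ 4 * C ^ 3 * m2 := by
    have : 0 ≤ C ^ 3 * m2 := by positivity
    linarith
  obtain ⟨J, J0, hJ, hkey⟩ := hD₀ D hD n fun x δ J => (hn1 x δ J).trans hm
  obtain ⟨c, hc0, hc1, hc2⟩ := u_lift hr hC he hE' J
  set z : E := e.symm (fun x => ∑ T, c T * sg (chi (JT J T) x)) with hz
  have hzsum : z = ∑ T, c T • e.symm (fun x => sg (chi (JT J T) x)) := by
    rw [hz, LinearEquiv.symm_apply_eq, map_sum]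
    funext x
    simp
  -- the bound for `∑ c_T x^T`
  have hF : ∀ x : Fin M → ℤˣ, |∑ T, c T * walsh T x| ≤ 3 * C ^ 3 * m1 := by
    intro x
    obtain ⟨g, hg⟩ := exists_indep hJ x
    have h1 : e z g = ∑ T, c T * walsh T x := by
      rw [hz, LinearEquiv.apply_symm_apply]
      refine Finset.sum_congr rfl fun T _ => ?_
      rw [JT, chi_prod_left, H1.sg_prod, walsh]
      simp only [hg]
    rw [← h1]
    refine (he.sup_le z g).trans ?_
    calc C * ‖z‖ ≤ C * (3 * C ^ 2 * m1) := mul_le_mul_of_nonneg_left hc2 hC0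
      _ = _ := by ring
  have hcT : ∀ T, |c T| ≤ K := by
    intro T
    have h1 : c T = avg fun x : Fin M → ℤˣ => walsh T x * ∑ S, c S * walsh S x := by
      simp only [Finset.mul_sum]
      rw [avg_sum]
      have h2 : ∀ S : Finset (Fin M), (avg fun x : Fin M → ℤˣ => walsh T x * (c S * walsh S x)) =
          c S * if T = S then 1 else 0 := by
        intro S
        rw [← avg_walsh_mul_walsh, ← avg_mul_left]
        exact avg_congr fun x => by ring
      simp only [h2]
      simp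
    rw [h1]
    refine (abs_avg_le _).trans ?_
    refine (avg_mono fun x => (?_ : _ ≤ K)).trans (avg_const K).le
    rw [abs_mul, walsh, Finset.abs_prod]
    simp only [abs_sg, Finset.prod_const_one, one_mul]
    refine (hF x).trans ?_
    have : 0 ≤ C ^ 3 * m1 := by positivity
    rw [hK]; linarith
  refine hcore c (hh n J0) hc0 hc1 ?_ ?_ ?_ ?_ ?_
  · intro x
    refine (hF x).trans ?_
    have : 0 ≤ C ^ 3 * m1 := by positivity
    linarith
  · -- oddness
    intro y
    unfold hh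
    rw [← avg_neg]
    apply avg_congr
    intro x
    have h1 : (fun k => (-y) k * chi J0 (x k)) = - fun k => y k * chi J0 (x k) := by
      funext k; simp
    rw [h1, hn]
    simp only [hν2, _root_.neg_apply]
  · -- first level coefficients
    intro k
    have h1 : wc {k} (hh n J0) = avg fun x : Fin M' → Fin D → ℤˣ =>
        avg fun y : Fin M' → ℤˣ => sg (y k) * n x (fun k => y k * chi J0 (x k)) J0 := by
      rw [wc]
      simp only [walsh_singleton, smul_eq_mul, hh, ← avg_mul_left]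
      rw [avg_comm]
    rw [h1]
    have h2 : ∀ x : Fin M' → Fin D → ℤˣ,
        (avg fun y : Fin M' → ℤˣ => sg (y k) * n x (fun k => y k * chi J0 (x k)) J0) = 1 := by
      intro x
      have h3 : (avg fun y : Fin M' → ℤˣ => sg (y k) * n x (fun k => y k * chi J0 (x k)) J0) =
          avg fun δ : Fin M' → ℤˣ => sg (chi J0 (x k)) * (sg (δ k) * n x δ J0) := by
        rw [← avg_comp_equiv (Equiv.mulRight (fun k => chi J0 (x k) : Fin M' → ℤˣ))
          (fun δ : Fin M' → ℤˣ => sg (chi J0 (x k)) * (sg (δ k) * n x δ J0))]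
        apply avg_congr
        intro y
        have h4 : (Equiv.mulRight (fun k => chi J0 (x k) : Fin M' → ℤˣ)) y =
            fun k => y k * chi J0 (x k) := rfl
        rw [h4]
        simp only [sg_mul]
        have := sg_mul_self (chi J0 (x k))
        linear_combination (-(sg (y k) * n x (fun k => y k * chi J0 (x k)) J0)) * this
      rw [h3, avg_mul_left]
      have h5 : (avg fun δ : Fin M' → ℤˣ => sg (δ k) * n x δ J0) =
          (wc {k} (ν x)) (e.symm fun t => sg (chi J0 t)) := by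
        rw [wc_apply]
        simp only [walsh_singleton, hn]
      rw [h5, hν3, evalE_apply, LinearEquiv.apply_symm_apply, sg_mul_self]
    rw [avg_congr h2]
    exact avg_const _
  · intro y
    unfold hh
    refine (abs_avg_le _).trans ?_
    exact (avg_mono fun x => (hn1 _ _ _).trans hm).trans (avg_const _).le
  · intro A
    have hAT : ∀ T : Finset (Fin M), (fun k => ∏ i ∈ T, A i k) = AT A T := by
      intro T; funext k; rw [AT_apply]
    simp only [hAT]
    -- the weighted average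
    set Q : ℝ := avg fun δ : Fin M' → ℤˣ => avg fun x : Fin M' → Fin D → ℤˣ =>
      WW J x (fun i k => A i k * δ k) * ν x δ z with hQ
    have hQ1 : |Q| ≤ (3 * C ^ 2 * m2) * (3 * C ^ 2 * m1) := by
      have h1 : ∀ δ : Fin M' → ℤˣ, |avg fun x : Fin M' → Fin D → ℤˣ =>
          WW J x (fun i k => A i k * δ k) * ν x δ z| ≤ (3 * C ^ 2 * m2) * (3 * C ^ 2 * m1) := by
        intro δ
        refine (abs_avg_le _).trans ?_
        have h2 : ∀ x : Fin M' → Fin D → ℤˣ, |WW J x (fun i k => A i k * δ k) * ν x δ z| ≤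
            WW J x (fun i k => A i k * δ k) * ((3 * C ^ 2 * m2) * (3 * C ^ 2 * m1)) := by
          intro x
          rw [abs_mul, abs_of_nonneg (WW_nonneg _ _ _)]
          refine mul_le_mul_of_nonneg_left ?_ (WW_nonneg _ _ _)
          have h3 := (ν x δ).le_opNorm z
          rw [Real.norm_eq_abs] at h3
          refine h3.trans (mul_le_mul ((hν1 x δ).trans (le_of_eq ?_)) hc2 (norm_nonneg _)
            (by positivity))
          ring
        refine (avg_mono h2).trans ?_
        rw [avg_mul_right, avg_WW hJ, one_mul]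
      refine (abs_avg_le _).trans ?_
      exact (avg_mono h1).trans (avg_const _).le
    have hQ2 : Q = ∑ T, c T * (avg fun δ : Fin M' → ℤˣ => avg fun x : Fin M' → Fin D → ℤˣ =>
        WW J x (fun i k => A i k * δ k) * n x δ (JT J T)) := by
      simp only [← avg_mul_left]
      rw [← avg_sum]
      apply avg_congr
      intro δ
      rw [← avg_sum]
      apply avg_congr
      intro x
      rw [hzsum, map_sum, Finset.mul_sum]
      refine Finset.sum_congr rfl fun T _ => ?_
      rw [map_smul, smul_eq_mul, hn]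
      ring
    have hdiff : |(∑ T, c T * hh n J0 (AT A T)) - Q| ≤ 1 := by
      rw [hQ2, ← Finset.sum_sub_distrib]
      refine (Finset.abs_sum_le_sum_abs _ _).trans ?_
      have h1 : ∀ T : Finset (Fin M), |c T * hh n J0 (AT A T) - c T *
          (avg fun δ : Fin M' → ℤˣ => avg fun x : Fin M' → Fin D → ℤˣ =>
            WW J x (fun i k => A i k * δ k) * n x δ (JT J T))| ≤ K * ε := by
        intro T
        rcases Nat.even_or_odd #T with hT | hT
        · rw [hc0 T hT]
          simp only [zero_mul, sub_zero, abs_zero]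
          positivity
        · rw [← mul_sub, abs_mul, abs_sub_comm]
          exact mul_le_mul (hcT T) (hkey A T hT) (abs_nonneg _) hK0.le
      refine (Finset.sum_le_sum fun T _ => h1 T).trans ?_
      rw [Finset.sum_const, nsmul_eq_mul, Finset.card_univ, Fintype.card_finset, Fintype.card_fin,
        hε]
      push_cast
      apply le_of_eq
      field_simp
    have h2 : |∑ T, c T * hh n J0 (AT A T)| ≤ |Q| + 1 := by
      have := abs_sub_abs_le_abs_sub (∑ T, c T * hh n J0 (AT A T)) Q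
      linarith
    refine h2.trans ((add_le_add_left hQ1 1).trans ?_)
    have h3 : (1 : ℝ) ≤ C ^ 6 * (m1 * m2) := by
      have : 1 ≤ C ^ 6 := one_le_pow₀ hC
      have h4 : 1 ≤ m1 * m2 := by nlinarith
      nlinarith
    have h4 : C ^ 4 * (m1 * m2) ≤ C ^ 6 * (m1 * m2) := by
      have h5 : C ^ 4 ≤ C ^ 6 := pow_le_pow_right₀ hC (by norm_num)
      have h6 : 0 ≤ m1 * m2 := by positivity
      exact mul_le_mul_of_nonneg_right h5 h6
    have h5 : 4 * C ^ 3 * m1 * (4 * C ^ 3 * m2) = 16 * (C ^ 6 * (m1 * m2)) := by ring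
    have h6 : 3 * C ^ 2 * m2 * (3 * C ^ 2 * m1) = 9 * (C ^ 4 * (m1 * m2)) := by ring
    rw [h5, h6]
    linarith

end Vale.Agent.P111.TK
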