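import Vale.Agent.P111.TK.Chi

/-! The combinatorial key of Theorem H. -/

set_option linter.unusedSectionVars false

namespace Vale.Agent.P111.TK

open Finset Vale.Agent.P111

section Defs

variable {D M M' : ℕ}

/-- `J_T`. -/
def JT (J : Fin M → Fin D → ℤˣ) (T : Finset (Fin M)) : Fin D → ℤˣ := ∏ i ∈ T, J i

/-- `A_T`. -/
def AT (A : Fin M → Fin M' → ℤˣ) (T : Finset (Fin M)) : Fin M' → ℤˣ := ∏ i ∈ T, A i

/-- The weight `W(x, A)`. -/
noncomputable def WW (J : Fin M → Fin D → ℤˣ) (x : Fin M' → Fin D → ℤˣ)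
    (A : Fin M → Fin M' → ℤˣ) : ℝ := ∏ i, ∏ k, (1 + sg (A i k) * sg (chi (J i) (x k)))

/-- The function `h_J`. -/
noncomputable def hh (n : (Fin M' → Fin D → ℤˣ) → (Fin M' → ℤˣ) → (Fin D → ℤˣ) → ℝ)
    (J : Fin D → ℤˣ) (y : Fin M' → ℤˣ) : ℝ :=
  avg fun x : Fin M' → Fin D → ℤˣ => n x (fun k => y k * chi J (x k)) J

theorem AT_apply (A : Fin M → Fin M' → ℤˣ) (T : Finset (Fin M)) (k : Fin M') :
    AT A T k = ∏ i ∈ T, A i k := by
  simp [AT]

theorem one_add_sg_ne_zero (u v : ℤˣ) (h : 1 + sg u * sg v ≠ 0) : v = u := by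
  rcases Int.units_eq_one_or u with rfl | rfl <;> rcases Int.units_eq_one_or v with rfl | rfl
  · rfl
  · exfalso; apply h; simp
  · exfalso; apply h; simp
  · rfl

/-- on the support of the weight the second argument is determined. -/
theorem supp (J : Fin M → Fin D → ℤˣ) (x : Fin M' → Fin D → ℤˣ) (A : Fin M → Fin M' → ℤˣ)
    (δ : Fin M' → ℤˣ) (T : Finset (Fin M)) (hT : Odd #T)
    (h : WW J x (fun i k => A i k * δ k) ≠ 0) :
    δ = fun k => AT A T k * chi (JT J T) (x k) := by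
  funext k
  have h1 : ∀ i, chi (J i) (x k) = A i k * δ k := by
    intro i
    apply one_add_sg_ne_zero
    intro h0
    apply h
    unfold WW
    exact Finset.prod_eq_zero (Finset.mem_univ i) (Finset.prod_eq_zero (Finset.mem_univ k) h0)
  rw [AT_apply, JT, chi_prod_left]
  have h2 : ∏ i ∈ T, chi (J i) (x k) = (∏ i ∈ T, A i k) * δ k := by
    have h3 : ∏ i ∈ T, chi (J i) (x k) = ∏ i ∈ T, (A i k * δ k) :=
      Finset.prod_congr rfl fun i _ => h1 i
    rw [h3, Finset.prod_mul_distrib, Finset.prod_const]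
    congr 1
    obtain ⟨m, hm⟩ := hT
    rw [hm, pow_succ, pow_mul, sq, Int.units_mul_self, one_pow, one_mul]
  rw [h2, ← mul_assoc, Int.units_mul_self, one_mul]

/-- even subsets -/
def ev (M : ℕ) : Finset (Finset (Fin M)) := Finset.univ.filter fun B => Even #B

theorem avg_units_prod (t : Fin M → ℝ) :
    (avg fun d : ℤˣ => ∏ i, (1 + sg d * t i)) = ∑ B ∈ ev M, ∏ i ∈ B, t i := by
  rw [avg_units]
  simp only [sg_one, sg_neg_one, one_mul, neg_mul]
  have h1 : ∏ i, (1 + t i) = ∑ B : Finset (Fin M), ∏ i ∈ B, t i := Finset.prod_one_add _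
  have h2 : ∏ i, (1 + -t i) = ∑ B : Finset (Fin M), (-1) ^ #B * ∏ i ∈ B, t i := by
    rw [Finset.prod_one_add]
    apply Finset.sum_congr rfl
    intro B _
    rw [Finset.prod_neg]
  rw [h1, h2, ← Finset.sum_add_distrib, ev, Finset.sum_filter, Finset.sum_div]
  apply Finset.sum_congr rfl
  intro B _
  split_ifs with h
  · rw [h.neg_one_pow]
    ring
  · rw [Nat.not_even_iff_odd] at h
    rw [h.neg_one_pow]
    ring

/-- The average of the weight over `δ`. -/
theorem avg_weight (J : Fin M → Fin D → ℤˣ) (x : Fin M' → Fin D → ℤˣ)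
    (A : Fin M → Fin M' → ℤˣ) :
    (avg fun δ : Fin M' → ℤˣ => WW J x (fun i k => A i k * δ k)) =
      ∑ B ∈ Fintype.piFinset (fun _ : Fin M' => ev M),
        (∏ k, sg (AT A (B k) k)) * Chi (fun k => JT J (B k)) x := by
  have h1 : ∀ δ : Fin M' → ℤˣ, WW J x (fun i k => A i k * δ k) =
      ∏ k, (fun (k : Fin M') (d : ℤˣ) =>
        ∏ i, (1 + sg d * (sg (A i k) * sg (chi (J i) (x k))))) k (δ k) := by
    intro δ
    unfold WW
    rw [Finset.prod_comm]
    apply Finset.prod_congr rfl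
    intro k _
    apply Finset.prod_congr rfl
    intro i _
    rw [sg_mul]
    ring
  simp only [h1]
  rw [avg_pi_prod (fun (k : Fin M') (d : ℤˣ) =>
        ∏ i, (1 + sg d * (sg (A i k) * sg (chi (J i) (x k)))))]
  simp only [avg_units_prod]
  rw [Finset.prod_univ_sum]
  apply Finset.sum_congr rfl
  intro B _
  rw [Chi, ← Finset.prod_mul_distrib]
  apply Finset.prod_congr rfl
  intro k _
  rw [Finset.prod_mul_distrib, JT, chi_prod_left, H1.sg_prod, AT_apply, H1.sg_prod]

/-- the Fourier coefficients -/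
noncomputable def gh (n : (Fin M' → Fin D → ℤˣ) → (Fin M' → ℤˣ) → (Fin D → ℤˣ) → ℝ)
    (J : Fin D → ℤˣ) (y : Fin M' → ℤˣ) (b : Fin M' → Fin D → ℤˣ) : ℝ :=
  avg fun x : Fin M' → Fin D → ℤˣ => Chi b x * n x (fun k => y k * chi J (x k)) J

theorem gh_one (n : (Fin M' → Fin D → ℤˣ) → (Fin M' → ℤˣ) → (Fin D → ℤˣ) → ℝ)
    (J : Fin D → ℤˣ) (y : Fin M' → ℤˣ) : gh n J y 1 = hh n J y := by
  unfold gh hh
  apply avg_congr
  intro x
  simp [Chi, chi_one_left]

/-- expansion -/
theorem expansion (n : (Fin M' → Fin D → ℤˣ) → (Fin M' → ℤˣ) → (Fin D → ℤˣ) → ℝ)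
    (J : Fin M → Fin D → ℤˣ) (A : Fin M → Fin M' → ℤˣ) (T : Finset (Fin M)) (hT : Odd #T) :
    (avg fun δ : Fin M' → ℤˣ => avg fun x : Fin M' → Fin D → ℤˣ =>
      WW J x (fun i k => A i k * δ k) * n x δ (JT J T)) =
      ∑ B ∈ Fintype.piFinset (fun _ : Fin M' => ev M),
        (∏ k, sg (AT A (B k) k)) * gh n (JT J T) (AT A T) (fun k => JT J (B k)) := by
  have h1 : ∀ (δ : Fin M' → ℤˣ) (x : Fin M' → Fin D → ℤˣ),
      WW J x (fun i k => A i k * δ k) * n x δ (JT J T) =
      WW J x (fun i k => A i k * δ k) * n x (fun k => AT A T k * chi (JT J T) (x k)) (JT J T) := by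
    intro δ x
    by_cases h : WW J x (fun i k => A i k * δ k) = 0
    · rw [h, zero_mul, zero_mul]
    · rw [← supp J x A δ T hT h]
  simp only [h1]
  rw [avg_comm]
  simp only [avg_mul_right, avg_weight, Finset.sum_mul]
  rw [avg_sum]
  apply Finset.sum_congr rfl
  intro B _
  unfold gh
  rw [← avg_mul_left]
  apply avg_congr
  intro x
  ring

/-- the bad set -/
noncomputable def bad (n : (Fin M' → Fin D → ℤˣ) → (Fin M' → ℤˣ) → (Fin D → ℤˣ) → ℝ) (ε : ℝ)
    (J : Fin D → ℤˣ) : Finset (Fin D → ℤˣ) :=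
  Finset.univ.biUnion fun y : Fin M' → ℤˣ =>
    (Finset.univ.filter fun b : Fin M' → Fin D → ℤˣ => ε < |gh n J y b|).biUnion fun b =>
      Finset.univ.image b

theorem card_bad_le (n : (Fin M' → Fin D → ℤˣ) → (Fin M' → ℤˣ) → (Fin D → ℤˣ) → ℝ) {B ε : ℝ}
    (hn : ∀ x δ J, |n x δ J| ≤ B) (hε : 0 < ε) (J : Fin D → ℤˣ) :
    (#(bad n ε J) : ℝ) ≤ 2 ^ M' * (B ^ 2 / ε ^ 2 * M') := by
  have h1 : (#(bad n ε J) : ℝ) ≤ ∑ y : Fin M' → ℤˣ,
      (#((Finset.univ.filter fun b : Fin M' → Fin D → ℤˣ => ε < |gh n J y b|).biUnion fun b =>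
        Finset.univ.image b) : ℝ) := by
    exact_mod_cast Finset.card_biUnion_le
  refine h1.trans ?_
  have h2 : ∀ y : Fin M' → ℤˣ,
      (#((Finset.univ.filter fun b : Fin M' → Fin D → ℤˣ => ε < |gh n J y b|).biUnion fun b =>
        Finset.univ.image b) : ℝ) ≤ B ^ 2 / ε ^ 2 * M' := by
    intro y
    have h3 : (#((Finset.univ.filter fun b : Fin M' → Fin D → ℤˣ => ε < |gh n J y b|).biUnion
        fun b => Finset.univ.image b) : ℝ) ≤
        ∑ b ∈ Finset.univ.filter (fun b : Fin M' → Fin D → ℤˣ => ε < |gh n J y b|), (M' : ℝ) := by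
      have h4 : #((Finset.univ.filter fun b : Fin M' → Fin D → ℤˣ => ε < |gh n J y b|).biUnion
        fun b => Finset.univ.image b) ≤
        ∑ b ∈ Finset.univ.filter (fun b : Fin M' → Fin D → ℤˣ => ε < |gh n J y b|), M' := by
        refine Finset.card_biUnion_le.trans ?_
        apply Finset.sum_le_sum
        intro b _
        refine Finset.card_image_le.trans ?_
        simp
      exact_mod_cast h4
    refine h3.trans ?_
    rw [Finset.sum_const, nsmul_eq_mul]
    have h5 := card_large_le (fun b : Fin M' → Fin D → ℤˣ => Chi b) avg_Chi_mul_Chi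
      (fun x => n x (fun k => y k * chi J (x k)) J) (fun x => hn _ _ _) hε
    exact mul_le_mul_of_nonneg_right h5 (by positivity)
  refine (Finset.sum_le_sum fun y _ => h2 y).trans (le_of_eq ?_)
  rw [Finset.sum_const, nsmul_eq_mul]
  simp

/-- the estimate when the even sums avoid the bad set -/
theorem estimate (n : (Fin M' → Fin D → ℤˣ) → (Fin M' → ℤˣ) → (Fin D → ℤˣ) → ℝ) {ε : ℝ}
    (hε : 0 ≤ ε) (J : Fin M → Fin D → ℤˣ) (A : Fin M → Fin M' → ℤˣ) (T : Finset (Fin M))
    (hT : Odd #T)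
    (hgood : ∀ B : Finset (Fin M), Even #B → B.Nonempty → JT J B ∉ bad n ε (JT J T)) :
    |(avg fun δ : Fin M' → ℤˣ => avg fun x : Fin M' → Fin D → ℤˣ =>
      WW J x (fun i k => A i k * δ k) * n x δ (JT J T)) - hh n (JT J T) (AT A T)| ≤
      ((2 : ℝ) ^ M) ^ M' * ε := by
  rw [expansion n J A T hT]
  set P := Fintype.piFinset (fun _ : Fin M' => ev M) with hP
  have h0 : (fun _ : Fin M' => (∅ : Finset (Fin M))) ∈ P := by
    rw [hP, Fintype.mem_piFinset]
    intro k
    simp [ev]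
  rw [← Finset.add_sum_erase P _ h0]
  have h1 : (∏ k : Fin M', sg (AT A ((fun _ : Fin M' => (∅ : Finset (Fin M))) k) k)) *
      gh n (JT J T) (AT A T) (fun k => JT J ((fun _ : Fin M' => (∅ : Finset (Fin M))) k)) =
      hh n (JT J T) (AT A T) := by
    rw [← gh_one]
    have e1 : ∀ k : Fin M', sg (AT A (∅ : Finset (Fin M)) k) = 1 := by
      intro k
      simp [AT]
    have e2 : (fun _ : Fin M' => JT J (∅ : Finset (Fin M))) = (1 : Fin M' → Fin D → ℤˣ) := by
      funext k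
      simp [JT]
    simp only [e1, e2]
    simp
  rw [h1, add_sub_cancel_left]
  refine (Finset.abs_sum_le_sum_abs _ _).trans ?_
  have h2 : ∀ B ∈ P.erase (fun _ => ∅), |(∏ k : Fin M', sg (AT A (B k) k)) *
      gh n (JT J T) (AT A T) (fun k => JT J (B k))| ≤ ε := by
    intro B hB
    rw [Finset.mem_erase, hP, Fintype.mem_piFinset] at hB
    obtain ⟨hB1, hB2⟩ := hB
    rw [abs_mul, Finset.abs_prod]
    simp only [abs_sg, Finset.prod_const_one, one_mul]
    by_contra hcon
    push Not at hcon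
    obtain ⟨k, hk⟩ : ∃ k, B k ≠ ∅ := by
      by_contra hc
      push Not at hc
      exact hB1 (funext hc)
    have hev : Even #(B k) := by
      have := hB2 k
      simpa [ev] using this
    apply hgood (B k) hev (Finset.nonempty_iff_ne_empty.mpr hk)
    unfold bad
    rw [Finset.mem_biUnion]
    refine ⟨AT A T, Finset.mem_univ _, ?_⟩
    rw [Finset.mem_biUnion]
    refine ⟨fun k => JT J (B k), ?_, ?_⟩
    · rw [Finset.mem_filter]
      exact ⟨Finset.mem_univ _, hcon⟩
    · rw [Finset.mem_image]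
      exact ⟨k, Finset.mem_univ _, rfl⟩
  refine (Finset.sum_le_sum h2).trans ?_
  rw [Finset.sum_const, nsmul_eq_mul]
  apply mul_le_mul_of_nonneg_right _ hε
  have h3 : #(P.erase (fun _ => ∅)) ≤ (2 ^ M) ^ M' := by
    refine (Finset.card_erase_le).trans ?_
    rw [hP, Fintype.card_piFinset]
    simp only [Finset.prod_const, Finset.card_univ, Fintype.card_fin]
    apply Nat.pow_le_pow_left
    refine (Finset.card_filter_le _ _).trans ?_
    simp
  exact_mod_cast h3

end Defs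

end Vale.Agent.P111.TK
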